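/-
helper65 — S0085 (row 63) conditional reduction, module 1: Walsh characters on `ι → Bool`,
the span `degLE ι d` of characters of size `≤ d`, and its closure properties.
Mathlib only.  Nothing here depends on a Prelude definition.
-/
import Mathlib

set_option autoImplicit false
set_option linter.unusedSectionVars false

namespace Crest.Agent.Helper65.S85

open Finset

/-- sign of a Boolean: `true ↦ 1`, `false ↦ -1`. -/
def sg (b : Bool) : ℝ := if b then 1 else -1

@[simp] lemma sg_true : sg true = 1 := by simp [sg]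
@[simp] lemma sg_false : sg false = -1 := by simp [sg]
lemma sg_mul_self (b : Bool) : sg b * sg b = 1 := by cases b <;> simp
lemma sg_not (b : Bool) : sg (!b) = - sg b := by cases b <;> simp
lemma sg_eq_ite (b : Bool) : sg b = if b then (1 : ℝ) else -1 := rfl

section Basic

variable {ι : Type*} [Fintype ι] [DecidableEq ι]

/-- Walsh character of the set `S`. -/
def chi (S : Finset ι) (x : ι → Bool) : ℝ := ∏ i ∈ S, sg (x i)

lemma chi_eq (S : Finset ι) (x : ι → Bool) :
    chi S x = ∏ i, if i ∈ S then sg (x i) else 1 := by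
  unfold chi
  rw [Finset.prod_ite_mem, Finset.univ_inter]

@[simp] lemma chi_empty (x : ι → Bool) : chi (∅ : Finset ι) x = 1 := by simp [chi]

/-- a sum over the cube of a product function factors. -/
lemma sum_prod_cube (w : ι → Bool → ℝ) :
    ∑ x : ι → Bool, ∏ i, w i (x i) = ∏ i, (w i true + w i false) := by
  have h := Finset.prod_univ_sum (fun _ : ι => (Finset.univ : Finset Bool)) (fun i b => w i b)
  rw [Fintype.piFinset_univ] at h
  rw [← h]
  refine Finset.prod_congr rfl fun i _ => ?_
  simp

lemma chi_mul_chi (S T : Finset ι) (x : ι → Bool) :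
    chi S x * chi T x = chi (symmDiff S T) x := by
  rw [chi_eq, chi_eq, chi_eq, ← Finset.prod_mul_distrib]
  refine Finset.prod_congr rfl fun i _ => ?_
  by_cases hS : i ∈ S <;> by_cases hT : i ∈ T <;> simp [hS, hT, Finset.mem_symmDiff, sg_mul_self]

lemma sum_chi_eq_zero {S : Finset ι} (hS : S.Nonempty) : ∑ x : ι → Bool, chi S x = 0 := by
  obtain ⟨i, hi⟩ := hS
  have h2 := sum_prod_cube (fun (j : ι) (b : Bool) => if j ∈ S then sg b else (1 : ℝ))
  have h3 : ∑ x : ι → Bool, chi S x = ∑ x : ι → Bool, ∏ j, (if j ∈ S then sg (x j) else 1) :=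
    Finset.sum_congr rfl fun x _ => chi_eq S x
  rw [h3]
  refine h2.trans ?_
  exact Finset.prod_eq_zero (Finset.mem_univ i) (by simp [hi])

lemma sum_chi_mul_chi_of_ne {S T : Finset ι} (h : S ≠ T) :
    ∑ x : ι → Bool, chi S x * chi T x = 0 := by
  simp_rw [chi_mul_chi]
  exact sum_chi_eq_zero (Finset.symmDiff_nonempty.2 h)

/-- dual orthogonality (Fourier inversion kernel). -/
lemma sum_chi_chi (x y : ι → Bool) :
    ∑ S : Finset ι, chi S x * chi S y = if x = y then (2 : ℝ) ^ Fintype.card ι else 0 := by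
  have h1 : ∀ S : Finset ι, chi S x * chi S y = ∏ i ∈ S, (sg (x i) * sg (y i)) := by
    intro S; simp [chi, Finset.prod_mul_distrib]
  simp_rw [h1]
  have h2 := Finset.prod_one_add (f := fun i => sg (x i) * sg (y i)) (Finset.univ : Finset ι)
  rw [Finset.powerset_univ] at h2
  rw [← h2]
  have h3 : ∀ i : ι, (1 + sg (x i) * sg (y i)) = if x i = y i then (2 : ℝ) else 0 := by
    intro i
    cases hx : x i <;> cases hy : y i <;> norm_num
  simp_rw [h3]
  rw [Finset.prod_ite_zero]
  by_cases hxy : x = y
  · subst hxy; simp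
  · have : ¬ ∀ i ∈ (Finset.univ : Finset ι), x i = y i := fun h => hxy (funext fun i => h i (Finset.mem_univ i))
    rw [if_neg this, if_neg hxy]

variable (ι)

/-- the real span of the Walsh characters of sets of size at most `d`. -/
def degLE (d : ℕ) : Submodule ℝ ((ι → Bool) → ℝ) :=
  Submodule.span ℝ {u | ∃ S : Finset ι, S.card ≤ d ∧ u = chi S}

variable {ι}

lemma chi_mem_degLE {S : Finset ι} {d : ℕ} (h : S.card ≤ d) : chi S ∈ degLE ι d :=
  Submodule.subset_span ⟨S, h, rfl⟩

lemma degLE_mono {a b : ℕ} (h : a ≤ b) : degLE ι a ≤ degLE ι b :=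
  Submodule.span_mono fun _ ⟨S, hS, hu⟩ => ⟨S, hS.trans h, hu⟩

lemma one_mem_degLE (d : ℕ) : (1 : (ι → Bool) → ℝ) ∈ degLE ι d := by
  have h : (1 : (ι → Bool) → ℝ) = chi (∅ : Finset ι) := by
    funext x; simp
  rw [h]
  exact chi_mem_degLE (by simp)

lemma const_mem_degLE (c : ℝ) (d : ℕ) : (fun _ : ι → Bool => c) ∈ degLE ι d := by
  have h : (fun _ : ι → Bool => c) = c • (1 : (ι → Bool) → ℝ) := by
    funext x; simp
  rw [h]
  exact Submodule.smul_mem _ _ (one_mem_degLE d)

lemma mul_mem_degLE {a b : ℕ} {u v : (ι → Bool) → ℝ} (hu : u ∈ degLE ι a) (hv : v ∈ degLE ι b) :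
    u * v ∈ degLE ι (a + b) := by
  have h1 : u * v ∈ degLE ι a * degLE ι b := Submodule.mul_mem_mul hu hv
  have h2 : degLE ι a * degLE ι b ≤ degLE ι (a + b) := by
    unfold degLE
    rw [Submodule.span_mul_span]
    refine Submodule.span_mono ?_
    rintro _ ⟨_, ⟨S, hS, rfl⟩, _, ⟨T, hT, rfl⟩, rfl⟩
    refine ⟨symmDiff S T, ?_, ?_⟩
    · calc (symmDiff S T).card ≤ (S ∪ T).card := Finset.card_le_card (by
            intro i hi
            rw [Finset.mem_symmDiff] at hi
            rw [Finset.mem_union]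
            tauto)
        _ ≤ S.card + T.card := Finset.card_union_le S T
        _ ≤ a + b := Nat.add_le_add hS hT
    · funext x
      simp [chi_mul_chi]
  exact h2 h1

lemma prod_mem_degLE {α : Type*} (s : Finset α) (u : α → (ι → Bool) → ℝ) (b : ℕ)
    (h : ∀ i ∈ s, u i ∈ degLE ι b) : ∏ i ∈ s, u i ∈ degLE ι (s.card * b) := by
  classical
  induction s using Finset.induction_on with
  | empty => simpa using one_mem_degLE (ι := ι) 0
  | insert a s ha ih =>
    rw [Finset.prod_insert ha, Finset.card_insert_of_notMem ha]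
    have h1 := mul_mem_degLE (h a (Finset.mem_insert_self a s))
      (ih fun i hi => h i (Finset.mem_insert_of_mem hi))
    have h2 : b + s.card * b = (s.card + 1) * b := by ring
    rwa [h2] at h1

/-- the statement's form of "degree at most `d`": all unnormalised Fourier sums above `d` vanish. -/
lemma fsum_eq_zero_of_mem_degLE {d : ℕ} {u : (ι → Bool) → ℝ} (hu : u ∈ degLE ι d)
    {S : Finset ι} (hS : d < S.card) : ∑ x : ι → Bool, u x * chi S x = 0 := by
  induction hu using Submodule.span_induction with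
  | mem v hv =>
    obtain ⟨T, hT, rfl⟩ := hv
    exact sum_chi_mul_chi_of_ne (by rintro rfl; omega)
  | zero => simp
  | add v w _ _ hv hw =>
    simp only [Pi.add_apply, add_mul, Finset.sum_add_distrib, hv, hw, add_zero]
  | smul c v _ hv =>
    simp only [Pi.smul_apply, smul_eq_mul, mul_assoc]
    rw [← Finset.mul_sum, hv, mul_zero]

/-- Fourier inversion. -/
lemma fourier_inversion (u : (ι → Bool) → ℝ) :
    u = ∑ S : Finset ι, ((∑ x : ι → Bool, u x * chi S x) / (2 : ℝ) ^ Fintype.card ι) • chi S := by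
  funext y
  simp only [Finset.sum_apply, Pi.smul_apply, smul_eq_mul]
  have h1 : ∀ S : Finset ι, (∑ x : ι → Bool, u x * chi S x) / (2 : ℝ) ^ Fintype.card ι * chi S y
      = ∑ x : ι → Bool, u x / (2 : ℝ) ^ Fintype.card ι * (chi S x * chi S y) := by
    intro S
    rw [Finset.sum_div, Finset.sum_mul]
    refine Finset.sum_congr rfl fun x _ => ?_
    ring
  simp_rw [h1]
  rw [Finset.sum_comm]
  simp_rw [← Finset.mul_sum, sum_chi_chi]
  simp only [mul_ite, mul_zero]
  rw [Finset.sum_ite_eq' Finset.univ y]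
  simp

lemma mem_degLE_of_fsum_eq_zero {d : ℕ} {u : (ι → Bool) → ℝ}
    (h : ∀ S : Finset ι, d < S.card → ∑ x : ι → Bool, u x * chi S x = 0) : u ∈ degLE ι d := by
  rw [fourier_inversion u]
  refine Submodule.sum_mem _ fun S _ => ?_
  by_cases hS : S.card ≤ d
  · exact Submodule.smul_mem _ _ (chi_mem_degLE hS)
  · rw [h S (by omega)]
    simp

end Basic

section Pull

variable {ι κ : Type*} [Fintype ι] [DecidableEq ι] [Fintype κ] [DecidableEq κ]

/-- pull a function on the `ι`-cube back to the `κ`-cube along an injection `ι ↪ κ`. -/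
lemma pull_mem_degLE (φ : ι ↪ κ) {d : ℕ} {u : (ι → Bool) → ℝ} (hu : u ∈ degLE ι d) :
    (fun z : κ → Bool => u (fun i => z (φ i))) ∈ degLE κ d := by
  induction hu using Submodule.span_induction with
  | mem v hv =>
    obtain ⟨S, hS, rfl⟩ := hv
    have h : (fun z : κ → Bool => chi S (fun i => z (φ i))) = chi (S.map φ) := by
      funext z
      simp [chi, Finset.prod_map]
    rw [h]
    exact chi_mem_degLE (by simpa using hS)
  | zero => exact Submodule.zero_mem _
  | add v w _ _ hv hw => exact Submodule.add_mem _ hv hw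
  | smul c v _ hv => exact Submodule.smul_mem _ c hv

end Pull

end Crest.Agent.Helper65.S85
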