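/-
helper65 — S0085 (row 63) conditional reduction, module 2: Boolean functions of low Fourier degree
(`LowDeg`), closed under block composition, a multiplexer on a fresh variable, negations and
re-indexing.  Mathlib only.
-/
import Crest.Agent.Helper65.S85.Cube

set_option autoImplicit false
set_option linter.unusedSectionVars false

namespace Crest.Agent.Helper65.S85

open Finset

section

variable {ι κ : Type*} [Fintype ι] [DecidableEq ι] [Fintype κ] [DecidableEq κ]

/-- `f` has Fourier degree at most `d`: its sign function lies in the span of the characters of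
size at most `d`. -/
def LowDeg (f : (ι → Bool) → Bool) (d : ℕ) : Prop := (fun x => sg (f x)) ∈ degLE ι d

lemma LowDeg.mono {f : (ι → Bool) → Bool} {a b : ℕ} (h : LowDeg f a) (hab : a ≤ b) : LowDeg f b :=
  degLE_mono hab h

/-- `LowDeg` is exactly the vanishing of all unnormalised Fourier sums above `d`. -/
lemma lowDeg_iff {f : (ι → Bool) → Bool} {d : ℕ} :
    LowDeg f d ↔ ∀ S : Finset ι, d < S.card → ∑ x : ι → Bool, sg (f x) * chi S x = 0 :=
  ⟨fun h _ hS => fsum_eq_zero_of_mem_degLE h hS, fun h => mem_degLE_of_fsum_eq_zero h⟩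

/-- block composition `f ∘ (g, …, g)` on disjoint copies of the variables of `g`. -/
def comp (f : (ι → Bool) → Bool) (g : (κ → Bool) → Bool) : (ι × κ → Bool) → Bool :=
  fun z => f (fun i => g (fun j => z (i, j)))

lemma subst_mem_degLE {g : (κ → Bool) → Bool} {b : ℕ} (hg : LowDeg g b) {a : ℕ}
    {u : (ι → Bool) → ℝ} (hu : u ∈ degLE ι a) :
    (fun z : ι × κ → Bool => u (fun i => g (fun j => z (i, j)))) ∈ degLE (ι × κ) (a * b) := by
  induction hu using Submodule.span_induction with
  | mem v hv =>
    obtain ⟨S, hS, rfl⟩ := hv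
    have h : (fun z : ι × κ → Bool => chi S (fun i => g (fun j => z (i, j))))
        = ∏ i ∈ S, (fun z : ι × κ → Bool => sg (g (fun j => z (Function.Embedding.sectR i κ j)))) := by
      funext z
      simp [chi, Finset.prod_apply]
    rw [h]
    refine degLE_mono (Nat.mul_le_mul_right b hS) (prod_mem_degLE S _ b fun i _ => ?_)
    exact pull_mem_degLE (Function.Embedding.sectR i κ) hg
  | zero => exact Submodule.zero_mem _
  | add v w _ _ hv hw => exact Submodule.add_mem _ hv hw
  | smul c v _ hv => exact Submodule.smul_mem _ c hv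

lemma LowDeg.comp {f : (ι → Bool) → Bool} {g : (κ → Bool) → Bool} {a b : ℕ}
    (hf : LowDeg f a) (hg : LowDeg g b) : LowDeg (comp f g) (a * b) :=
  subst_mem_degLE hg hf

/-- multiplexer on a fresh variable: `if z none then f₁ else f₀`. -/
def mux (f₁ f₀ : (ι → Bool) → Bool) : (Option ι → Bool) → Bool :=
  fun z => if z none then f₁ (fun i => z (some i)) else f₀ (fun i => z (some i))

lemma LowDeg.mux {f₁ f₀ : (ι → Bool) → Bool} {d : ℕ} (h₁ : LowDeg f₁ d) (h₀ : LowDeg f₀ d) :
    LowDeg (mux f₁ f₀) (d + 1) := by
  have hc : (fun z : Option ι → Bool => sg (z none)) ∈ degLE (Option ι) 1 := by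
    have h : (fun z : Option ι → Bool => sg (z none)) = chi ({none} : Finset (Option ι)) := by
      funext z; simp [chi]
    rw [h]
    exact chi_mem_degLE (by simp)
  have hA : (fun z : Option ι → Bool => (1 + sg (z none)) / 2) ∈ degLE (Option ι) 1 := by
    have h : (fun z : Option ι → Bool => (1 + sg (z none)) / 2)
        = (1 / 2 : ℝ) • ((1 : (Option ι → Bool) → ℝ) + fun z => sg (z none)) := by
      funext z; simp; ring
    rw [h]
    exact Submodule.smul_mem _ _ (Submodule.add_mem _ (one_mem_degLE 1) hc)
  have hB : (fun z : Option ι → Bool => (1 - sg (z none)) / 2) ∈ degLE (Option ι) 1 := by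
    have h : (fun z : Option ι → Bool => (1 - sg (z none)) / 2)
        = (1 / 2 : ℝ) • ((1 : (Option ι → Bool) → ℝ) - fun z => sg (z none)) := by
      funext z; simp; ring
    rw [h]
    exact Submodule.smul_mem _ _ (Submodule.sub_mem _ (one_mem_degLE 1) hc)
  have hU₁ := pull_mem_degLE (Function.Embedding.some : ι ↪ Option ι) h₁
  have hU₀ := pull_mem_degLE (Function.Embedding.some : ι ↪ Option ι) h₀
  have hsum := Submodule.add_mem _ (mul_mem_degLE hA hU₁) (mul_mem_degLE hB hU₀)
  have h : (fun z : Option ι → Bool => sg (S85.mux f₁ f₀ z))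
      = (fun z : Option ι → Bool => (1 + sg (z none)) / 2)
          * (fun z : Option ι → Bool => sg (f₁ (fun i => z (Function.Embedding.some i))))
        + (fun z : Option ι → Bool => (1 - sg (z none)) / 2)
          * (fun z : Option ι → Bool => sg (f₀ (fun i => z (Function.Embedding.some i)))) := by
    funext z
    simp only [S85.mux, Pi.add_apply, Pi.mul_apply, Function.Embedding.some_apply]
    cases hz : z none <;> simp
  unfold LowDeg
  rw [h, add_comm d 1]
  exact hsum

/-- constant functions have degree `0`. -/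
lemma lowDeg_const (c : Bool) (d : ℕ) : LowDeg (fun _ : ι → Bool => c) d :=
  const_mem_degLE (sg c) d

/-- output negation. -/
def fnot (f : (ι → Bool) → Bool) : (ι → Bool) → Bool := fun x => !(f x)

lemma LowDeg.fnot {f : (ι → Bool) → Bool} {d : ℕ} (h : LowDeg f d) : LowDeg (fnot f) d := by
  have h1 : (fun x : ι → Bool => sg (S85.fnot f x)) = -(fun x : ι → Bool => sg (f x)) := by
    funext x; simp [S85.fnot, sg_not]
  unfold LowDeg
  rw [h1]
  exact Submodule.neg_mem _ h

/-- input negation. -/
def fneg (f : (ι → Bool) → Bool) : (ι → Bool) → Bool := fun x => f (fun i => !(x i))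

lemma neg_mem_degLE {d : ℕ} {u : (ι → Bool) → ℝ} (hu : u ∈ degLE ι d) :
    (fun x : ι → Bool => u (fun i => !(x i))) ∈ degLE ι d := by
  induction hu using Submodule.span_induction with
  | mem v hv =>
    obtain ⟨S, hS, rfl⟩ := hv
    have h : (fun x : ι → Bool => chi S (fun i => !(x i))) = ((-1 : ℝ) ^ S.card) • chi S := by
      funext x
      simp [chi, sg_not, Finset.prod_neg]
    rw [h]
    exact Submodule.smul_mem _ _ (chi_mem_degLE hS)
  | zero => exact Submodule.zero_mem _
  | add v w _ _ hv hw => exact Submodule.add_mem _ hv hw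
  | smul c v _ hv => exact Submodule.smul_mem _ c hv

lemma LowDeg.fneg {f : (ι → Bool) → Bool} {d : ℕ} (h : LowDeg f d) : LowDeg (fneg f) d :=
  neg_mem_degLE h

/-- re-indexing along an equivalence. -/
def fre (e : ι ≃ κ) (f : (ι → Bool) → Bool) : (κ → Bool) → Bool := fun z => f (fun i => z (e i))

lemma LowDeg.fre (e : ι ≃ κ) {f : (ι → Bool) → Bool} {d : ℕ} (h : LowDeg f d) :
    LowDeg (fre e f) d :=
  pull_mem_degLE e.toEmbedding h

end

end Crest.Agent.Helper65.S85
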