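/-
helper65 — S0085 (row 63) conditional reduction, module 3: the bias function
`bias f p = Pr_{x ~ Bernoulli(p)^ι}[f x = true]`, its polynomial `biasPoly f`, and the
composition law `bias (comp f g) p = bias f (bias g p)`.  Mathlib only.
-/
import Crest.Agent.Helper65.S85.Deg

set_option autoImplicit false
set_option linter.unusedSectionVars false

namespace Crest.Agent.Helper65.S85

open Finset Polynomial

/-- `p`-biased weight of one bit. -/
def wt (p : ℝ) (b : Bool) : ℝ := if b then p else 1 - p

@[simp] lemma wt_true (p : ℝ) : wt p true = p := by simp [wt]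
@[simp] lemma wt_false (p : ℝ) : wt p false = 1 - p := by simp [wt]
lemma wt_not (p : ℝ) (b : Bool) : wt p (!b) = wt (1 - p) b := by cases b <;> simp

section

variable {ι κ : Type*} [Fintype ι] [DecidableEq ι] [Fintype κ] [DecidableEq κ]

/-- `p`-biased weight of a point of the cube. -/
def pw (p : ℝ) (x : ι → Bool) : ℝ := ∏ i, wt p (x i)

/-- the bias function of `f`. -/
def bias (f : (ι → Bool) → Bool) (p : ℝ) : ℝ := ∑ x : ι → Bool, if f x then pw p x else 0

lemma sum_pw (p : ℝ) : ∑ x : ι → Bool, pw p x = 1 := by
  unfold pw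
  rw [sum_prod_cube (fun _ b => wt p b)]
  simp

lemma bias_const_true (p : ℝ) : bias (fun _ : ι → Bool => true) p = 1 := by
  simp [bias, sum_pw]

lemma bias_const_false (p : ℝ) : bias (fun _ : ι → Bool => false) p = 0 := by
  simp [bias]

lemma bias_fnot (f : (ι → Bool) → Bool) (p : ℝ) : bias (fnot f) p = 1 - bias f p := by
  have h : bias (fnot f) p + bias f p = 1 := by
    unfold bias
    rw [← Finset.sum_add_distrib, ← sum_pw (ι := ι) p]
    refine Finset.sum_congr rfl fun x _ => ?_
    cases hx : f x <;> simp [fnot, hx]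
  linarith

lemma bias_fneg (f : (ι → Bool) → Bool) (p : ℝ) : bias (fneg f) p = bias f (1 - p) := by
  unfold bias
  refine Fintype.sum_equiv (Equiv.piCongrRight fun _ : ι => Equiv.boolNot) _ _ fun x => ?_
  have h1 : (Equiv.piCongrRight fun _ : ι => Equiv.boolNot) x = fun i => !(x i) := by
    funext i; simp
  rw [h1]
  have h2 : pw (1 - p) (fun i => !(x i)) = pw p x := by
    unfold pw
    refine Finset.prod_congr rfl fun i _ => ?_
    rw [wt_not]
    simp
  rw [h2]
  rfl

lemma bias_fre (e : ι ≃ κ) (f : (ι → Bool) → Bool) (p : ℝ) : bias (fre e f) p = bias f p := by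
  unfold bias
  refine Fintype.sum_equiv (Equiv.arrowCongr e.symm (Equiv.refl Bool)) _ _ fun z => ?_
  have h1 : (Equiv.arrowCongr e.symm (Equiv.refl Bool)) z = fun i => z (e i) := by
    funext i; simp [Equiv.arrowCongr]
  rw [h1]
  have h2 : pw p (fun i => z (e i)) = pw p z := by
    unfold pw
    exact Equiv.prod_comp e (fun k => wt p (z k))
  rw [h2]
  rfl

lemma bias_mux (f₁ f₀ : (ι → Bool) → Bool) (p : ℝ) :
    bias (mux f₁ f₀) p = p * bias f₁ p + (1 - p) * bias f₀ p := by
  unfold bias
  rw [← (Equiv.piOptionEquivProd (α := ι) (β := fun _ => Bool)).symm.sum_comp]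
  rw [Fintype.sum_prod_type, Fintype.sum_bool, Finset.mul_sum, Finset.mul_sum]
  congr 1
  · refine Finset.sum_congr rfl fun x _ => ?_
    by_cases h : f₁ x <;> simp [mux, pw, Fintype.prod_option, h]
  · refine Finset.sum_congr rfl fun x _ => ?_
    by_cases h : f₀ x <;> simp [mux, pw, Fintype.prod_option, h]

lemma bias_comp (f : (ι → Bool) → Bool) (g : (κ → Bool) → Bool) (p : ℝ) :
    bias (comp f g) p = bias f (bias g p) := by
  have hq : ∀ b : Bool, ∑ t : κ → Bool, (if g t = b then pw p t else 0) = wt (bias g p) b := by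
    intro b
    cases b
    · rw [wt_false, ← bias_fnot]
      unfold bias fnot
      refine Finset.sum_congr rfl fun t _ => ?_
      cases g t <;> simp
    · rw [wt_true]
      unfold bias
      refine Finset.sum_congr rfl fun t _ => ?_
      cases g t <;> simp
  have hR : bias f (bias g p) = ∑ x : ι → Bool, ∑ y : ι → κ → Bool,
      if f x then (if (∀ i, g (y i) = x i) then ∏ i, pw p (y i) else 0) else 0 := by
    unfold bias
    refine Finset.sum_congr rfl fun x _ => ?_
    by_cases hfx : f x
    · simp only [hfx, if_true]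
      have h1 : pw (∑ x : κ → Bool, if g x then pw p x else 0) x
          = ∏ i, ∑ t : κ → Bool, (if g t = x i then pw p t else 0) := by
        have := fun i => hq (x i)
        unfold bias at this
        unfold pw
        exact Finset.prod_congr rfl fun i _ => (this i).symm
      rw [h1, Fintype.prod_sum]
      refine Finset.sum_congr rfl fun y _ => ?_
      rw [Fintype.prod_ite_zero]
    · simp [hfx]
  have hL : bias (comp f g) p
      = ∑ y : ι → κ → Bool, if f (fun i => g (y i)) then ∏ i, pw p (y i) else 0 := by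
    unfold bias
    refine Fintype.sum_equiv (Equiv.curry ι κ Bool) _ _ fun z => ?_
    have h1 : pw p z = ∏ i, pw p ((Equiv.curry ι κ Bool) z i) := by
      unfold pw
      rw [Fintype.prod_prod_type]
      rfl
    rw [h1]
    rfl
  rw [hL, hR, Finset.sum_comm]
  refine Finset.sum_congr rfl fun y _ => ?_
  rw [Finset.sum_eq_single (fun i => g (y i))]
  · simp
  · intro x _ hx
    have : ¬ ∀ i, g (y i) = x i := fun h => hx (funext fun i => (h i).symm)
    simp [this]
  · simp

/-- the bias polynomial of `f`. -/
noncomputable def biasPoly (f : (ι → Bool) → Bool) : ℝ[X] :=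
  ∑ x : ι → Bool, if f x then ∏ i, (if x i then (X : ℝ[X]) else 1 - X) else 0

@[simp] lemma eval_biasPoly (f : (ι → Bool) → Bool) (p : ℝ) : (biasPoly f).eval p = bias f p := by
  unfold biasPoly bias pw
  rw [Polynomial.eval_finsetSum]
  refine Finset.sum_congr rfl fun x _ => ?_
  split_ifs
  · rw [Polynomial.eval_prod]
    refine Finset.prod_congr rfl fun i _ => ?_
    cases x i <;> simp
  · simp

lemma biasPoly_comp (f : (ι → Bool) → Bool) (g : (κ → Bool) → Bool) :
    biasPoly (comp f g) = (biasPoly f).comp (biasPoly g) :=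
  Polynomial.funext fun p => by simp [bias_comp]

lemma biasPoly_mux (f₁ f₀ : (ι → Bool) → Bool) :
    biasPoly (mux f₁ f₀) = X * biasPoly f₁ + (1 - X) * biasPoly f₀ :=
  Polynomial.funext fun p => by simp [bias_mux]

lemma biasPoly_fnot (f : (ι → Bool) → Bool) : biasPoly (fnot f) = 1 - biasPoly f :=
  Polynomial.funext fun p => by simp [bias_fnot]

lemma biasPoly_fneg (f : (ι → Bool) → Bool) : biasPoly (fneg f) = (biasPoly f).comp (1 - X) :=
  Polynomial.funext fun p => by simp [bias_fneg]

lemma biasPoly_fre (e : ι ≃ κ) (f : (ι → Bool) → Bool) : biasPoly (fre e f) = biasPoly f :=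
  Polynomial.funext fun p => by simp [bias_fre]

lemma biasPoly_const_true : biasPoly (fun _ : ι → Bool => true) = 1 :=
  Polynomial.funext fun p => by simp [bias_const_true]

lemma biasPoly_const_false : biasPoly (fun _ : ι → Bool => false) = 0 :=
  Polynomial.funext fun p => by simp [bias_const_false]

end

end Crest.Agent.Helper65.S85
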