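/-
helper65 — S0085 (row 63) conditional reduction, module 4: the level-1 sum `Wsum f` equals the
derivative of the bias polynomial at `1/2`; a function with `Wsum f ≠ 0` is not constant; and the
bridge to the literal S0085 conclusion.  Mathlib only.
-/
import Crest.Agent.Helper65.S85.Bias

set_option autoImplicit false
set_option linter.unusedSectionVars false

namespace Crest.Agent.Helper65.S85

open Finset Polynomial

section

variable {ι : Type*} [Fintype ι] [DecidableEq ι]

/-- the sum of the normalised singleton Fourier coefficients of `f`. -/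
noncomputable def Wsum (f : (ι → Bool) → Bool) : ℝ :=
  ∑ i, (∑ x : ι → Bool, sg (f x) * sg (x i)) / 2 ^ Fintype.card ι

lemma sum_sg_coord (i : ι) : ∑ x : ι → Bool, sg (x i) = 0 := by
  have h := sum_chi_eq_zero (S := ({i} : Finset ι)) (by simp)
  simpa [chi] using h

lemma hasDerivAt_wt (p : ℝ) (b : Bool) : HasDerivAt (fun p => wt p b) (sg b) p := by
  cases b
  · simp only [wt_false, sg_false]
    exact (hasDerivAt_id p).const_sub 1
  · simp only [wt_true, sg_true]
    exact hasDerivAt_id p

lemma hasDerivAt_pw (x : ι → Bool) (p : ℝ) :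
    HasDerivAt (fun p => pw p x) (∑ i, (∏ j ∈ univ.erase i, wt p (x j)) * sg (x i)) p := by
  unfold pw
  have h := HasDerivAt.fun_finsetProd (u := (univ : Finset ι)) (f := fun i p => wt p (x i))
    (f' := fun i => sg (x i)) (x := p) (fun i _ => hasDerivAt_wt p (x i))
  simpa [smul_eq_mul] using h

lemma hasDerivAt_bias (f : (ι → Bool) → Bool) (p : ℝ) :
    HasDerivAt (bias f)
      (∑ x : ι → Bool, if f x then ∑ i, (∏ j ∈ univ.erase i, wt p (x j)) * sg (x i) else 0) p := by
  unfold bias
  refine HasDerivAt.fun_sum fun x _ => ?_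
  split_ifs
  · exact hasDerivAt_pw x p
  · exact hasDerivAt_const p 0

lemma wt_half (b : Bool) : wt (1 / 2) b = 1 / 2 := by cases b <;> norm_num

lemma Wsum_eq_aux (f : (ι → Bool) → Bool) :
    (∑ x : ι → Bool, if f x then ∑ i, (∏ j ∈ univ.erase i, wt (1 / 2) (x j)) * sg (x i) else 0)
      = Wsum f := by
  unfold Wsum
  have h1 : ∀ x : ι → Bool,
      (if f x then ∑ i, (∏ j ∈ univ.erase i, wt (1 / 2) (x j)) * sg (x i) else 0)
        = ∑ i, if f x then (∏ j ∈ univ.erase i, wt (1 / 2) (x j)) * sg (x i) else 0 := by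
    intro x
    split_ifs <;> simp
  simp_rw [h1]
  rw [Finset.sum_comm]
  refine Finset.sum_congr rfl fun i _ => ?_
  have hn : 1 ≤ Fintype.card ι := Fintype.card_pos_iff.2 ⟨i⟩
  have h2 : ∀ x : ι → Bool, (∏ j ∈ univ.erase i, wt (1 / 2) (x j))
      = (2 : ℝ) / 2 ^ Fintype.card ι := by
    intro x
    simp_rw [wt_half]
    rw [Finset.prod_const, Finset.card_erase_of_mem (Finset.mem_univ i), Finset.card_univ]
    obtain ⟨m, hm⟩ : ∃ m, Fintype.card ι = m + 1 := ⟨Fintype.card ι - 1, by omega⟩
    rw [hm, Nat.add_sub_cancel, pow_succ, one_div, inv_pow]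
    field_simp
  simp_rw [h2]
  have h3 : ∀ x : ι → Bool, sg (f x) * sg (x i)
      = 2 * (if f x then sg (x i) else 0) - sg (x i) := by
    intro x
    cases f x <;> simp <;> ring
  simp_rw [h3]
  rw [Finset.sum_sub_distrib, sum_sg_coord, sub_zero, ← Finset.mul_sum, Finset.mul_sum,
    Finset.sum_div]
  refine Finset.sum_congr rfl fun x _ => ?_
  split_ifs <;> ring

/-- the level-1 sum is the derivative of the bias polynomial at `1/2`. -/
lemma Wsum_eq (f : (ι → Bool) → Bool) : Wsum f = (biasPoly f).derivative.eval (1 / 2) := by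
  have h1 := hasDerivAt_bias f (1 / 2)
  have h2 : HasDerivAt (bias f) ((biasPoly f).derivative.eval (1 / 2)) (1 / 2) := by
    have h := (biasPoly f).hasDerivAt (1 / 2)
    have hfun : (fun x => (biasPoly f).eval x) = bias f := funext (eval_biasPoly f)
    rwa [hfun] at h
  rw [← h1.unique h2]
  exact (Wsum_eq_aux f).symm

lemma exists_ne_of_Wsum_ne_zero {f : (ι → Bool) → Bool} (h : Wsum f ≠ 0) : ∃ x y, f x ≠ f y := by
  by_contra hcon0
  have hcon : ∀ x y, f x = f y := fun x y => by_contra fun hne => hcon0 ⟨x, y, hne⟩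
  apply h
  unfold Wsum
  refine Finset.sum_eq_zero fun i _ => ?_
  have h1 : ∀ x : ι → Bool, sg (f x) = sg (f (fun _ => false)) := fun x => by
    rw [hcon x (fun _ => false)]
  simp_rw [h1, ← Finset.mul_sum, sum_sg_coord, mul_zero, zero_div]

end

/-- bridge to the literal conclusion of S0085 (for one `C`). -/
theorem statement_of {n : ℕ} {f : (Fin n → Bool) → Bool} {d : ℕ} (hdeg : LowDeg f d) {C : ℝ}
    (hC : 0 < C) (hW : C * Real.sqrt d < Wsum f) :
    (∃ x y, f x ≠ f y) ∧
    (∀ S : Finset (Fin n), d < S.card →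
      ∑ x : Fin n → Bool, ((if f x then (1 : ℝ) else -1) * ∏ i ∈ S, (if x i then (1 : ℝ) else -1)) = 0) ∧
    C * Real.sqrt d <
      ∑ i : Fin n, (∑ x : Fin n → Bool, ((if f x then (1 : ℝ) else -1) * (if x i then (1 : ℝ) else -1))) / 2 ^ n := by
  refine ⟨exists_ne_of_Wsum_ne_zero ?_, ?_, ?_⟩
  · have : 0 ≤ C * Real.sqrt d := mul_nonneg hC.le (Real.sqrt_nonneg _)
    linarith
  · intro S hS
    exact lowDeg_iff.1 hdeg S hS
  · have h : Wsum f = ∑ i : Fin n, (∑ x : Fin n → Bool,
        ((if f x then (1 : ℝ) else -1) * (if x i then (1 : ℝ) else -1))) / 2 ^ n := by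
      unfold Wsum
      rw [Fintype.card_fin]
      rfl
    rw [← h]
    exact hW

end Crest.Agent.Helper65.S85
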