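/-
helper65 — S0085 (row 63) conditional reduction, module 5: `Realizable Q d` (the polynomial `Q` is
the bias polynomial of a Boolean function of Fourier degree `≤ d` on some `Fin m`-cube), its
closure properties, the dyadic approximation lemma, and the bridge to the S0085 conclusion.
Mathlib only.
-/
import Crest.Agent.Helper65.S85.W

set_option autoImplicit false
set_option linter.unusedSectionVars false

namespace Crest.Agent.Helper65.S85

open Polynomial

/-- `Q` is the bias polynomial of a Boolean function of Fourier degree at most `d`. -/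
def Realizable (Q : ℝ[X]) (d : ℕ) : Prop :=
  ∃ (m : ℕ) (f : (Fin m → Bool) → Bool), LowDeg f d ∧ biasPoly f = Q

lemma Realizable.mono {Q : ℝ[X]} {d d' : ℕ} (h : Realizable Q d) (hd : d ≤ d') :
    Realizable Q d' := by
  obtain ⟨m, f, hf, hQ⟩ := h
  exact ⟨m, f, hf.mono hd, hQ⟩

/-- a Boolean function on any finite index type gives a realizable polynomial. -/
lemma realizable_of {ι : Type} [Fintype ι] [DecidableEq ι] (f : (ι → Bool) → Bool) {d : ℕ}
    (h : LowDeg f d) : Realizable (biasPoly f) d :=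
  ⟨Fintype.card ι, fre (Fintype.equivFin ι) f, h.fre _, biasPoly_fre _ f⟩

/-- realizable polynomials are closed under composition; degrees multiply. -/
lemma Realizable.comp {Q₁ Q₂ : ℝ[X]} {d₁ d₂ : ℕ} (h₁ : Realizable Q₁ d₁) (h₂ : Realizable Q₂ d₂) :
    Realizable (Q₁.comp Q₂) (d₁ * d₂) := by
  obtain ⟨m₁, f₁, hf₁, rfl⟩ := h₁
  obtain ⟨m₂, f₂, hf₂, rfl⟩ := h₂
  rw [← biasPoly_comp]
  exact realizable_of _ (hf₁.comp hf₂)

/-- AND with a fresh variable. -/
lemma Realizable.andVar {Q : ℝ[X]} {d : ℕ} (h : Realizable Q d) : Realizable (X * Q) (d + 1) := by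
  obtain ⟨m, f, hf, rfl⟩ := h
  have h1 := realizable_of (mux f (fun _ => false)) (hf.mux (lowDeg_const false d))
  rwa [biasPoly_mux, biasPoly_const_false, mul_zero, add_zero] at h1

/-- OR with a fresh variable. -/
lemma Realizable.orVar {Q : ℝ[X]} {d : ℕ} (h : Realizable Q d) :
    Realizable (X + (1 - X) * Q) (d + 1) := by
  obtain ⟨m, f, hf, rfl⟩ := h
  have h1 := realizable_of (mux (fun _ => true) f) ((lowDeg_const true d).mux hf)
  rwa [biasPoly_mux, biasPoly_const_true, mul_one] at h1

/-- output negation. -/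
lemma Realizable.not {Q : ℝ[X]} {d : ℕ} (h : Realizable Q d) : Realizable (1 - Q) d := by
  obtain ⟨m, f, hf, rfl⟩ := h
  exact ⟨m, fnot f, hf.fnot, biasPoly_fnot f⟩

/-- input negation. -/
lemma Realizable.negInput {Q : ℝ[X]} {d : ℕ} (h : Realizable Q d) :
    Realizable (Q.comp (1 - X)) d := by
  obtain ⟨m, f, hf, rfl⟩ := h
  exact ⟨m, fneg f, hf.fneg, biasPoly_fneg f⟩

/-- the dictator. -/
lemma realizable_X : Realizable (X : ℝ[X]) 1 := by
  have h1 := realizable_of (mux (fun _ : Fin 0 → Bool => true) (fun _ => false))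
    ((lowDeg_const true 0).mux (lowDeg_const false 0))
  rwa [biasPoly_mux, biasPoly_const_true, biasPoly_const_false, mul_one, mul_zero, add_zero] at h1

/-- a realizable polynomial whose derivative at `1/2` is large in absolute value gives the S0085
conclusion for the constant `C`. -/
theorem statement_of_realizable {Q : ℝ[X]} {d : ℕ} (h : Realizable Q d) {C : ℝ} (hC : 0 < C)
    (hW : C * Real.sqrt d < |Q.derivative.eval (1 / 2)|) :
    ∃ n : ℕ, ∃ f : (Fin n → Bool) → Bool, ∃ d : ℕ,
      (∃ x y, f x ≠ f y) ∧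
      (∀ S : Finset (Fin n), d < S.card →
        ∑ x : Fin n → Bool, ((if f x then (1 : ℝ) else -1) * ∏ i ∈ S, (if x i then (1 : ℝ) else -1)) = 0) ∧
      C * Real.sqrt d <
        ∑ i : Fin n, (∑ x : Fin n → Bool, ((if f x then (1 : ℝ) else -1) * (if x i then (1 : ℝ) else -1))) / 2 ^ n := by
  by_cases hs : 0 ≤ Q.derivative.eval (1 / 2)
  · obtain ⟨m, f, hf, rfl⟩ := h
    rw [abs_of_nonneg hs, ← Wsum_eq] at hW
    exact ⟨m, f, d, statement_of hf hC hW⟩
  · obtain ⟨m, f, hf, hQ⟩ := h.negInput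
    have hd : (Q.comp (1 - X)).derivative.eval (1 / 2) = - Q.derivative.eval (1 / 2) := by
      rw [Polynomial.derivative_comp]
      simp
      norm_num
    rw [abs_of_neg (not_le.1 hs), ← hd, ← hQ, ← Wsum_eq] at hW
    exact ⟨m, f, d, statement_of hf hC hW⟩

/-- dyadic approximation by AND/OR decision lists: bias within `2^-(M+1)` of any `x ∈ [0,1]`,
degree `M + 1`, level-1 sum at least `2 min (v, 1 - v)`. -/
lemma approx (M : ℕ) : ∀ x : ℝ, 0 ≤ x → x ≤ 1 →
    ∃ Q : ℝ[X], Realizable Q (M + 1) ∧ |Q.eval (1 / 2) - x| ≤ (1 / 2) ^ (M + 1) ∧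
      0 ≤ Q.eval (1 / 2) ∧ Q.eval (1 / 2) ≤ 1 ∧
      2 * min (Q.eval (1 / 2)) (1 - Q.eval (1 / 2)) ≤ Q.derivative.eval (1 / 2) := by
  induction M with
  | zero =>
    intro x hx0 hx1
    refine ⟨X, realizable_X, ?_, ?_, ?_, ?_⟩
    · rw [abs_le]; constructor <;> simp <;> linarith
    · simp
    · simp; norm_num
    · simp; norm_num
  | succ M ih =>
    intro x hx0 hx1
    by_cases hx : x ≤ 1 / 2
    · obtain ⟨Q, hR, hv, h0, h1, hw⟩ := ih (2 * x) (by linarith) (by linarith)
      refine ⟨X * Q, hR.andVar, ?_, ?_, ?_, ?_⟩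
      · have : (X * Q).eval (1 / 2) - x = (Q.eval (1 / 2) - 2 * x) / 2 := by simp; ring
        rw [this, abs_div, abs_of_pos (by norm_num : (0 : ℝ) < 2), pow_succ]
        linarith
      · simp; linarith
      · simp; linarith
      · have hm : 0 ≤ min (Q.eval (1 / 2)) (1 - Q.eval (1 / 2)) := le_min h0 (by linarith)
        have hd : (X * Q).derivative.eval (1 / 2) = Q.eval (1 / 2) + Q.derivative.eval (1 / 2) / 2 := by
          simp [Polynomial.derivative_mul]; ring
        have he : (X * Q).eval (1 / 2) = Q.eval (1 / 2) / 2 := by simp; ring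
        rw [hd, he]
        have := min_le_left (Q.eval (1 / 2) / 2) (1 - Q.eval (1 / 2) / 2)
        linarith
    · have hx' : 1 / 2 < x := not_le.1 hx
      obtain ⟨Q, hR, hv, h0, h1, hw⟩ := ih (2 * x - 1) (by linarith) (by linarith)
      refine ⟨X + (1 - X) * Q, hR.orVar, ?_, ?_, ?_, ?_⟩
      · have : (X + (1 - X) * Q).eval (1 / 2) - x = (Q.eval (1 / 2) - (2 * x - 1)) / 2 := by
          simp; ring
        rw [this, abs_div, abs_of_pos (by norm_num : (0 : ℝ) < 2), pow_succ]
        linarith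
      · simp; linarith
      · simp; linarith
      · have hm : 0 ≤ min (Q.eval (1 / 2)) (1 - Q.eval (1 / 2)) := le_min h0 (by linarith)
        have hd : (X + (1 - X) * Q).derivative.eval (1 / 2)
            = 1 - Q.eval (1 / 2) + Q.derivative.eval (1 / 2) / 2 := by
          simp [Polynomial.derivative_mul]; ring
        have he : (X + (1 - X) * Q).eval (1 / 2) = (1 + Q.eval (1 / 2)) / 2 := by simp; ring
        rw [hd, he]
        have := min_le_right ((1 + Q.eval (1 / 2)) / 2) (1 - (1 + Q.eval (1 / 2)) / 2)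
        linarith

end Crest.Agent.Helper65.S85
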