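/-
helper65 — S0085 (row 63) conditional reduction, module 6: the analytic part and the main theorems.

  `S0085_of_fixed_point` : a realizable polynomial `Q` of degree bound `D ≥ 1` with a fixed point
     `p ∈ (0,1)` and `D < Q'(p)^2` implies the S0085 statement (for every `C > 0`).
  `S0085_of_antifixed`  : same for an anti-fixed point `Q p = 1 - p`.
  `S0085_of_gadget`     : the same starting from a concrete Boolean function `g` on `Fin n` whose
     high Fourier sums vanish (the statement's own form of "degree ≤ D").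

Proof: `F_k = g^(∘k) ∘ h_k`, where `h_k` is an AND/OR decision list on `A k + B + 1` fresh
variables whose bias is within `2^-(A k + B + 1)` of the fixed point; the orbit of the bias stays
in a ball where `c₁ ≤ |Q'| ≤ L`, so `|W(F_k)| ≥ c₀ c₁^k` while `deg F_k ≤ D^k (A k + B + 1)`,
and `c₁^2 > D`.  Mathlib only.
-/
import Crest.Agent.Helper65.S85.Realizable

set_option autoImplicit false
set_option linter.unusedSectionVars false

namespace Crest.Agent.Helper65.S85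

open Polynomial

/-- `tower Q H k = Q ∘ Q ∘ ⋯ ∘ Q ∘ H` (`k` copies of `Q`). -/
noncomputable def tower (Q H : ℝ[X]) : ℕ → ℝ[X]
  | 0 => H
  | k + 1 => Q.comp (tower Q H k)

lemma realizable_tower {Q H : ℝ[X]} {D dH : ℕ} (hQ : Realizable Q D) (hH : Realizable H dH)
    (k : ℕ) : Realizable (tower Q H k) (D ^ k * dH) := by
  induction k with
  | zero => simpa [tower] using hH
  | succ k ih =>
    have h := hQ.comp ih
    have e : D ^ (k + 1) * dH = D * (D ^ k * dH) := by ring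
    rw [e]
    exact h

lemma poly_lipschitz (Q : ℝ[X]) (p η L : ℝ) (hη : 0 ≤ η)
    (hL : ∀ t, |t - p| ≤ η → |Q.derivative.eval t| ≤ L) (y : ℝ) (hy : |y - p| ≤ η) :
    |Q.eval y - Q.eval p| ≤ L * |y - p| := by
  have h := Convex.norm_image_sub_le_of_norm_deriv_le (f := fun t => Q.eval t) (C := L)
    (s := Metric.closedBall p η) (x := p) (y := y)
    (fun t _ => Q.differentiableAt)
    (fun t ht => by
      rw [Polynomial.deriv]
      exact hL t (by simpa [Real.dist_eq] using ht))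
    (convex_closedBall p η) (Metric.mem_closedBall_self hη) (by simpa [Real.dist_eq] using hy)
  simpa [Real.norm_eq_abs] using h

lemma tower_bounds (Q H : ℝ[X]) (p η c₁ L : ℝ) (hη : 0 ≤ η) (hL1 : 1 ≤ L) (hc1 : 0 ≤ c₁)
    (hfix : Q.eval p = p)
    (hder : ∀ t, |t - p| ≤ η → c₁ ≤ |Q.derivative.eval t| ∧ |Q.derivative.eval t| ≤ L)
    (k : ℕ) (hv : |H.eval (1 / 2) - p| ≤ η / L ^ k) :
    ∀ i : ℕ, i ≤ k → |(tower Q H i).eval (1 / 2) - p| ≤ η * L ^ i / L ^ k ∧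
      c₁ ^ i * |H.derivative.eval (1 / 2)| ≤ |(tower Q H i).derivative.eval (1 / 2)| := by
  have hL0 : 0 < L := by linarith
  intro i
  induction i with
  | zero =>
    intro _
    refine ⟨?_, ?_⟩
    · simpa [tower] using hv
    · simp [tower]
  | succ i ih =>
    intro hik
    obtain ⟨h1, h2⟩ := ih (by omega)
    have hLk : 0 < L ^ k := pow_pos hL0 k
    have hball : |(tower Q H i).eval (1 / 2) - p| ≤ η := by
      refine h1.trans ?_
      rw [div_le_iff₀ hLk]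
      have : L ^ i ≤ L ^ k := pow_le_pow_right₀ hL1 (by omega)
      exact mul_le_mul_of_nonneg_left this hη
    have hlip := poly_lipschitz Q p η L hη (fun t ht => (hder t ht).2) _ hball
    rw [hfix] at hlip
    refine ⟨?_, ?_⟩
    · have e : (tower Q H (i + 1)).eval (1 / 2) = Q.eval ((tower Q H i).eval (1 / 2)) := by
        simp [tower, Polynomial.eval_comp]
      rw [e]
      refine hlip.trans ?_
      have : L * |(tower Q H i).eval (1 / 2) - p| ≤ L * (η * L ^ i / L ^ k) :=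
        mul_le_mul_of_nonneg_left h1 hL0.le
      refine this.trans (le_of_eq ?_)
      rw [pow_succ]
      ring
    · have e : (tower Q H (i + 1)).derivative.eval (1 / 2)
          = (tower Q H i).derivative.eval (1 / 2)
            * Q.derivative.eval ((tower Q H i).eval (1 / 2)) := by
        simp [tower, Polynomial.derivative_comp, Polynomial.eval_comp]
      rw [e, abs_mul, pow_succ]
      have h3 := (hder _ hball).1
      calc c₁ ^ i * c₁ * |H.derivative.eval (1 / 2)|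
          = (c₁ ^ i * |H.derivative.eval (1 / 2)|) * c₁ := by ring
        _ ≤ |(tower Q H i).derivative.eval (1 / 2)|
            * |Q.derivative.eval ((tower Q H i).eval (1 / 2))| :=
          mul_le_mul h2 h3 hc1 (abs_nonneg _)

lemma exists_pow_gt (r : ℝ) (hr : 1 < r) (K : ℝ) : ∃ k : ℕ, 1 ≤ k ∧ K * k < r ^ k := by
  have h := tendsto_pow_const_div_const_pow_of_one_lt 1 hr
  have hK : (0 : ℝ) < 1 / (|K| + 1) := by positivity
  have h1 := (h.eventually (gt_mem_nhds hK)).and (Filter.eventually_ge_atTop 1)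
  obtain ⟨k, hk1, hk2⟩ := h1.exists
  refine ⟨k, hk2, ?_⟩
  have hrk : 0 < r ^ k := by positivity
  have hK1 : (0 : ℝ) < |K| + 1 := by positivity
  rw [pow_one, div_lt_div_iff₀ hrk hK1] at hk1
  have hk0 : (0 : ℝ) ≤ k := Nat.cast_nonneg k
  calc K * k ≤ |K| * k := mul_le_mul_of_nonneg_right (le_abs_self K) hk0
    _ ≤ k * (|K| + 1) := by nlinarith [abs_nonneg K]
    _ < r ^ k := by linarith

lemma pow_half_le (L : ℝ) (hL : 0 < L) (A B k M : ℕ) (hA : L < 2 ^ A) (hM : M = A * k + B) :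
    (1 / 2 : ℝ) ^ (M + 1) ≤ (1 / 2 : ℝ) ^ B / L ^ k := by
  have e1 : (1 / 2 : ℝ) ^ (M + 1) = ((1 / 2 : ℝ) ^ A) ^ k * (1 / 2 : ℝ) ^ B * (1 / 2) := by
    rw [hM, pow_succ, pow_add, pow_mul]
  have h1 : (1 / 2 : ℝ) ^ A ≤ L⁻¹ := by
    rw [one_div, inv_pow]
    exact inv_anti₀ hL hA.le
  have e2 : ((1 / 2 : ℝ) ^ A) ^ k ≤ (L ^ k)⁻¹ := by
    rw [← inv_pow]
    exact pow_le_pow_left₀ (by positivity) h1 k
  have e3 : (0 : ℝ) ≤ (1 / 2 : ℝ) ^ B := by positivity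
  have e4 : (0 : ℝ) ≤ ((1 / 2 : ℝ) ^ A) ^ k := by positivity
  rw [e1, div_eq_mul_inv]
  calc ((1 / 2 : ℝ) ^ A) ^ k * (1 / 2 : ℝ) ^ B * (1 / 2)
      ≤ ((1 / 2 : ℝ) ^ A) ^ k * (1 / 2 : ℝ) ^ B := by
        have := mul_nonneg e4 e3
        linarith
    _ ≤ (L ^ k)⁻¹ * (1 / 2 : ℝ) ^ B := mul_le_mul_of_nonneg_right e2 e3
    _ = (1 / 2 : ℝ) ^ B * (L ^ k)⁻¹ := mul_comm _ _

lemma final_ineq (C c₀ c₁ Dr : ℝ) (hC : 0 < C) (hc0 : 0 < c₀) (hc1 : 0 < c₁) (hD : 0 < Dr)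
    (A B k M : ℕ) (hk1 : 1 ≤ k) (hM : M = A * k + B)
    (hk : C ^ 2 * ((A : ℝ) + B + 1) / c₀ ^ 2 * k < (c₁ ^ 2 / Dr) ^ k) :
    C * Real.sqrt (Dr ^ k * ((M : ℝ) + 1)) < c₁ ^ k * c₀ := by
  have hpos : 0 < c₁ ^ k * c₀ / C := by positivity
  have hk0 : (1 : ℝ) ≤ k := by exact_mod_cast hk1
  have hA0 : (0 : ℝ) ≤ A := Nat.cast_nonneg A
  have hB0 : (0 : ℝ) ≤ B := Nat.cast_nonneg B
  have hM1 : (M : ℝ) + 1 ≤ ((A : ℝ) + B + 1) * k := by
    rw [hM]; push_cast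
    nlinarith
  have hc0sq : 0 < c₀ ^ 2 := by positivity
  have hC2 : 0 < C ^ 2 := by positivity
  have hk' : C ^ 2 * ((A : ℝ) + B + 1) * k < (c₁ ^ 2 / Dr) ^ k * c₀ ^ 2 := by
    have h := hk
    rw [div_mul_eq_mul_div, div_lt_iff₀ hc0sq] at h
    exact h
  have hrk : (c₁ ^ 2 / Dr) ^ k = c₁ ^ (2 * k) / Dr ^ k := by
    rw [div_pow, ← pow_mul]
  have hDk : 0 < Dr ^ k := pow_pos hD k
  have h5 : C ^ 2 * ((M : ℝ) + 1) < c₁ ^ (2 * k) / Dr ^ k * c₀ ^ 2 := by
    rw [← hrk]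
    have h : C ^ 2 * ((M : ℝ) + 1) ≤ C ^ 2 * (((A : ℝ) + B + 1) * k) :=
      mul_le_mul_of_nonneg_left hM1 hC2.le
    have e : C ^ 2 * (((A : ℝ) + B + 1) * k) = C ^ 2 * ((A : ℝ) + B + 1) * k := by ring
    linarith
  have h6 : (c₁ ^ k * c₀ / C) ^ 2 = c₁ ^ (2 * k) * c₀ ^ 2 / C ^ 2 := by
    rw [div_pow, mul_pow, ← pow_mul, mul_comm k 2]
  have h7 : C ^ 2 * ((M : ℝ) + 1) * Dr ^ k < c₁ ^ (2 * k) * c₀ ^ 2 := by
    have h := mul_lt_mul_of_pos_right h5 hDk
    have e : c₁ ^ (2 * k) / Dr ^ k * c₀ ^ 2 * Dr ^ k = c₁ ^ (2 * k) * c₀ ^ 2 := by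
      field_simp
    rw [e] at h
    exact h
  have hkey : Dr ^ k * ((M : ℝ) + 1) < (c₁ ^ k * c₀ / C) ^ 2 := by
    rw [h6, lt_div_iff₀ hC2]
    linarith
  have hsq : Real.sqrt (Dr ^ k * ((M : ℝ) + 1)) < c₁ ^ k * c₀ / C :=
    (Real.sqrt_lt' hpos).2 hkey
  rw [lt_div_iff₀ hC] at hsq
  linarith

/-- constants for the orbit argument: a ball around the fixed point on which `c₁ ≤ |Q'| ≤ L`
with `D < c₁^2`. -/
lemma exists_ball (Q : ℝ[X]) (D : ℕ) (hD : 1 ≤ D) (p : ℝ)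
    (hslope : (D : ℝ) < (Q.derivative.eval p) ^ 2) :
    ∃ c₁ L η : ℝ, 0 < c₁ ∧ (D : ℝ) < c₁ ^ 2 ∧ 1 ≤ L ∧ 0 < η ∧
      ∀ t, |t - p| ≤ η → c₁ ≤ |Q.derivative.eval t| ∧ |Q.derivative.eval t| ≤ L := by
  have hDr : (1 : ℝ) ≤ D := by exact_mod_cast hD
  obtain ⟨s, hs⟩ : ∃ s : ℝ, s = |Q.derivative.eval p| := ⟨_, rfl⟩
  have hs2 : (D : ℝ) < s ^ 2 := by rw [hs, sq_abs]; exact hslope
  have hs0 : 0 ≤ s := by rw [hs]; exact abs_nonneg _
  obtain ⟨sD, hsD⟩ : ∃ sD : ℝ, sD = Real.sqrt D := ⟨_, rfl⟩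
  have hsD1 : 1 ≤ sD := by
    rw [hsD]; exact Real.one_le_sqrt.2 hDr
  have hsDsq : sD ^ 2 = D := by rw [hsD]; exact Real.sq_sqrt (by linarith)
  have hsDs : sD < s := by
    by_contra hcon
    have h1 : s ≤ sD := not_lt.1 hcon
    have h2 : s ^ 2 ≤ sD ^ 2 := pow_le_pow_left₀ hs0 h1 2
    linarith
  have hc1a : sD < (s + sD) / 2 := by linarith
  have hc1b : (s + sD) / 2 < s := by linarith
  have hc1pos : 0 < (s + sD) / 2 := by linarith
  have hc1sq : (D : ℝ) < ((s + sD) / 2) ^ 2 := by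
    rw [← hsDsq]
    exact pow_lt_pow_left₀ hc1a (by linarith) (by norm_num)
  have hcont : Continuous fun t : ℝ => |Q.derivative.eval t| :=
    continuous_abs.comp Q.derivative.continuous
  have hev : ∀ᶠ t in nhds p, (s + sD) / 2 < |Q.derivative.eval t| ∧ |Q.derivative.eval t| < s + 1 :=
    (hcont.continuousAt.eventually (lt_mem_nhds (show (s + sD) / 2 < |Q.derivative.eval p| by
        rw [← hs]; exact hc1b))).and
      (hcont.continuousAt.eventually (gt_mem_nhds (show |Q.derivative.eval p| < s + 1 by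
        rw [← hs]; linarith)))
  obtain ⟨η₀, hη₀, hball⟩ := Metric.eventually_nhds_iff.1 hev
  refine ⟨(s + sD) / 2, s + 1, η₀ / 2, hc1pos, hc1sq, by linarith, by linarith, ?_⟩
  intro t ht
  have hd : dist t p < η₀ := by rw [Real.dist_eq]; linarith
  exact ⟨(hball hd).1.le, (hball hd).2.le⟩

/-- **Main theorem (fixed point form).** -/
theorem S0085_of_fixed_point (Q : ℝ[X]) (D : ℕ) (hD : 1 ≤ D) (hR : Realizable Q D)
    (p : ℝ) (hp0 : 0 < p) (hp1 : p < 1) (hfix : Q.eval p = p)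
    (hslope : (D : ℝ) < (Q.derivative.eval p) ^ 2) (C : ℝ) (hC : 0 < C) :
    ∃ n : ℕ, ∃ f : (Fin n → Bool) → Bool, ∃ d : ℕ,
      (∃ x y, f x ≠ f y) ∧
      (∀ S : Finset (Fin n), d < S.card →
        ∑ x : Fin n → Bool, ((if f x then (1 : ℝ) else -1) * ∏ i ∈ S, (if x i then (1 : ℝ) else -1)) = 0) ∧
      C * Real.sqrt d <
        ∑ i : Fin n, (∑ x : Fin n → Bool, ((if f x then (1 : ℝ) else -1) * (if x i then (1 : ℝ) else -1))) / 2 ^ n := by
  have hDr : (1 : ℝ) ≤ D := by exact_mod_cast hD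
  have hDpos : (0 : ℝ) < D := by linarith
  obtain ⟨c₁, L, η, hc1pos, hc1sq, hL1, hηpos, hder⟩ := exists_ball Q D hD p hslope
  have hLpos : 0 < L := by linarith
  obtain ⟨c₀, hc₀⟩ : ∃ c₀ : ℝ, c₀ = min p (1 - p) := ⟨_, rfl⟩
  have hc0pos : 0 < c₀ := by rw [hc₀]; exact lt_min hp0 (by linarith)
  have hc0p : c₀ ≤ p := by rw [hc₀]; exact min_le_left _ _
  have hc0q : c₀ ≤ 1 - p := by rw [hc₀]; exact min_le_right _ _
  -- integers A, B
  obtain ⟨A, hA⟩ := pow_unbounded_of_one_lt L (by norm_num : (1 : ℝ) < 2)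
  obtain ⟨B, hB⟩ := exists_pow_lt_of_lt_one (lt_min hηpos (by linarith : 0 < c₀ / 2))
    (by norm_num : (1 / 2 : ℝ) < 1)
  have hBη : (1 / 2 : ℝ) ^ B < η := lt_of_lt_of_le hB (min_le_left _ _)
  have hBc : (1 / 2 : ℝ) ^ B < c₀ / 2 := lt_of_lt_of_le hB (min_le_right _ _)
  -- growth
  have hr1 : 1 < c₁ ^ 2 / (D : ℝ) := by rw [lt_div_iff₀ hDpos]; linarith
  obtain ⟨k, hk1, hk⟩ := exists_pow_gt (c₁ ^ 2 / (D : ℝ)) hr1 (C ^ 2 * ((A : ℝ) + B + 1) / c₀ ^ 2)
  -- the inner decision list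
  obtain ⟨M, hM⟩ : ∃ M : ℕ, M = A * k + B := ⟨_, rfl⟩
  obtain ⟨H, hHR, hv, hv0, hv1, hw⟩ := approx M p hp0.le hp1.le
  have hLk : 0 < L ^ k := pow_pos hLpos k
  have hpowM := pow_half_le L hLpos A B k M hA hM
  have hvη : |H.eval (1 / 2) - p| ≤ η / L ^ k := by
    refine hv.trans (hpowM.trans ?_)
    exact div_le_div_of_nonneg_right hBη.le hLk.le
  have hvc : |H.eval (1 / 2) - p| ≤ c₀ / 2 := by
    refine hv.trans ?_
    have h : (1 / 2 : ℝ) ^ (M + 1) ≤ (1 / 2 : ℝ) ^ B := by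
      refine pow_le_pow_of_le_one (by norm_num) (by norm_num) ?_
      omega
    linarith
  have hwc : c₀ ≤ H.derivative.eval (1 / 2) := by
    have habs := abs_le.1 hvc
    have h3 : c₀ / 2 ≤ min (H.eval (1 / 2)) (1 - H.eval (1 / 2)) :=
      le_min (by linarith [habs.1]) (by linarith [habs.2])
    linarith
  -- the tower
  obtain ⟨-, hT⟩ := tower_bounds Q H p η c₁ L hηpos.le hL1 hc1pos.le hfix hder k hvη k le_rfl
  have hRT := realizable_tower hR hHR k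
  refine statement_of_realizable hRT hC ?_
  have hlow : c₁ ^ k * c₀ ≤ |(tower Q H k).derivative.eval (1 / 2)| := by
    refine le_trans ?_ hT
    refine mul_le_mul_of_nonneg_left ?_ (pow_nonneg hc1pos.le k)
    exact hwc.trans (le_abs_self _)
  refine lt_of_lt_of_le ?_ hlow
  have hcast : ((D ^ k * (M + 1) : ℕ) : ℝ) = (D : ℝ) ^ k * ((M : ℝ) + 1) := by push_cast; ring
  rw [hcast]
  exact final_ineq C c₀ c₁ D hC hc0pos hc1pos hDpos A B k M hk1 hM hk

/-- **Main theorem (anti-fixed point form).** -/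
theorem S0085_of_antifixed (Q : ℝ[X]) (D : ℕ) (hD : 1 ≤ D) (hR : Realizable Q D)
    (p : ℝ) (hp0 : 0 < p) (hp1 : p < 1) (hfix : Q.eval p = 1 - p)
    (hslope : (D : ℝ) < (Q.derivative.eval p) ^ 2) (C : ℝ) (hC : 0 < C) :
    ∃ n : ℕ, ∃ f : (Fin n → Bool) → Bool, ∃ d : ℕ,
      (∃ x y, f x ≠ f y) ∧
      (∀ S : Finset (Fin n), d < S.card →
        ∑ x : Fin n → Bool, ((if f x then (1 : ℝ) else -1) * ∏ i ∈ S, (if x i then (1 : ℝ) else -1)) = 0) ∧
      C * Real.sqrt d <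
        ∑ i : Fin n, (∑ x : Fin n → Bool, ((if f x then (1 : ℝ) else -1) * (if x i then (1 : ℝ) else -1))) / 2 ^ n := by
  refine S0085_of_fixed_point (1 - Q) D hD hR.not p hp0 hp1 ?_ ?_ C hC
  · simp [hfix]
  · have : (1 - Q).derivative.eval p = - Q.derivative.eval p := by simp
    rw [this, neg_sq]
    exact hslope

/-- **Gadget form.** A Boolean function `g` on `Fin n` whose unnormalised Fourier sums vanish above
`D ≥ 1` (the S0085 statement's own form), and whose bias polynomial has a fixed or anti-fixed point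
`p ∈ (0,1)` with `D < slope^2`, implies the S0085 statement. -/
theorem S0085_of_gadget (n : ℕ) (g : (Fin n → Bool) → Bool) (D : ℕ) (hD : 1 ≤ D)
    (hdeg : ∀ S : Finset (Fin n), D < S.card →
      ∑ x : Fin n → Bool, ((if g x then (1 : ℝ) else -1) * ∏ i ∈ S, (if x i then (1 : ℝ) else -1)) = 0)
    (p : ℝ) (hp0 : 0 < p) (hp1 : p < 1)
    (hfix : (biasPoly g).eval p = p ∨ (biasPoly g).eval p = 1 - p)
    (hslope : (D : ℝ) < ((biasPoly g).derivative.eval p) ^ 2) (C : ℝ) (hC : 0 < C) :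
    ∃ n : ℕ, ∃ f : (Fin n → Bool) → Bool, ∃ d : ℕ,
      (∃ x y, f x ≠ f y) ∧
      (∀ S : Finset (Fin n), d < S.card →
        ∑ x : Fin n → Bool, ((if f x then (1 : ℝ) else -1) * ∏ i ∈ S, (if x i then (1 : ℝ) else -1)) = 0) ∧
      C * Real.sqrt d <
        ∑ i : Fin n, (∑ x : Fin n → Bool, ((if f x then (1 : ℝ) else -1) * (if x i then (1 : ℝ) else -1))) / 2 ^ n := by
  have hlow : LowDeg g D := lowDeg_iff.2 fun S hS => hdeg S hS
  have hR : Realizable (biasPoly g) D := ⟨n, g, hlow, rfl⟩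
  rcases hfix with h | h
  · exact S0085_of_fixed_point _ D hD hR p hp0 hp1 h hslope C hC
  · exact S0085_of_antifixed _ D hD hR p hp0 hp1 h hslope C hC

end Crest.Agent.Helper65.S85
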