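/-
helper65 — S0085 (row 63) conditional reduction, module 7: kernel-checkable certificates for a
concrete truth table.

A truth table on `N` variables is a full binary tree `BT Bool` of depth `N`
(`node t₀ t₁`: variable `0` false ↦ `t₀`, true ↦ `t₁`; the subtrees use variables `1, 2, …`).
  * `BT.chk N D (BT.sgT t) = true` (a fast Walsh–Hadamard recursion on integer trees) implies
    `LowDeg (BT.evalB N t) D`;
  * `BT.polyL t : List ℤ` are the monomial coefficients of the bias polynomial of `BT.evalB N t`.
Mathlib only.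
-/
import Crest.Agent.Helper65.S85.Main

set_option autoImplicit false
set_option linter.unusedSectionVars false

namespace Crest.Agent.Helper65.S85

open Polynomial

/-- binary trees used as truth tables. -/
inductive BT (α : Type) : Type
  | leaf : α → BT α
  | node : BT α → BT α → BT α
  deriving DecidableEq

namespace BT

/-- well-formed (full) of depth `N`. -/
def wf {α : Type} : ℕ → BT α → Bool
  | 0, leaf _ => true
  | N + 1, node a b => wf N a && wf N b
  | _, _ => false

/-- the Boolean function of a Boolean tree. -/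
def evalB : (N : ℕ) → BT Bool → (Fin N → Bool) → Bool
  | 0, leaf b, _ => b
  | N + 1, node t₀ t₁, z =>
      if z 0 then evalB N t₁ (fun i => z i.succ) else evalB N t₀ (fun i => z i.succ)
  | _, _, _ => false

/-- the real function of an integer tree. -/
def evalZ : (N : ℕ) → BT ℤ → (Fin N → Bool) → ℝ
  | 0, leaf v, _ => (v : ℝ)
  | N + 1, node t₀ t₁, z =>
      if z 0 then evalZ N t₁ (fun i => z i.succ) else evalZ N t₀ (fun i => z i.succ)
  | _, _, _ => 0

/-- the sign tree. -/
def sgT : BT Bool → BT ℤ
  | leaf b => leaf (if b then 1 else -1)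
  | node a b => node (sgT a) (sgT b)

lemma wf_sgT : ∀ (N : ℕ) (t : BT Bool), wf N t = true → wf N (sgT t) = true
  | 0, leaf _, _ => rfl
  | 0, node _ _, h => by simp [wf] at h
  | N + 1, leaf _, h => by simp [wf] at h
  | N + 1, node a b, h => by
      simp only [wf, Bool.and_eq_true] at h
      simp only [sgT, wf, Bool.and_eq_true]
      exact ⟨wf_sgT N a h.1, wf_sgT N b h.2⟩

lemma sg_evalB : ∀ (N : ℕ) (t : BT Bool), wf N t = true → ∀ z : Fin N → Bool,
    sg (evalB N t z) = evalZ N (sgT t) z
  | 0, leaf b, _, z => by cases b <;> simp [evalB, evalZ, sgT]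
  | 0, node _ _, h, _ => by simp [wf] at h
  | N + 1, leaf _, h, _ => by simp [wf] at h
  | N + 1, node a b, h, z => by
      simp only [wf, Bool.and_eq_true] at h
      simp only [evalB, sgT, evalZ]
      split_ifs
      · exact sg_evalB N b h.2 _
      · exact sg_evalB N a h.1 _

/-- leafwise combination of two integer trees of the same shape. -/
def zip (op : ℤ → ℤ → ℤ) : BT ℤ → BT ℤ → BT ℤ
  | leaf a, leaf b => leaf (op a b)
  | node a b, node c d => node (zip op a c) (zip op b d)
  | _, _ => leaf 0

lemma wf_zip (op : ℤ → ℤ → ℤ) : ∀ (N : ℕ) (s t : BT ℤ), wf N s = true → wf N t = true →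
    wf N (zip op s t) = true
  | 0, leaf _, leaf _, _, _ => rfl
  | 0, node _ _, _, h, _ => by simp [wf] at h
  | 0, leaf _, node _ _, _, h => by simp [wf] at h
  | N + 1, leaf _, _, h, _ => by simp [wf] at h
  | N + 1, node _ _, leaf _, _, h => by simp [wf] at h
  | N + 1, node a b, node c d, h, h' => by
      simp only [wf, Bool.and_eq_true] at h h'
      simp only [zip, wf, Bool.and_eq_true]
      exact ⟨wf_zip op N a c h.1 h'.1, wf_zip op N b d h.2 h'.2⟩

lemma evalZ_zip_add : ∀ (N : ℕ) (s t : BT ℤ), wf N s = true → wf N t = true →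
    ∀ z : Fin N → Bool, evalZ N (zip (· + ·) s t) z = evalZ N s z + evalZ N t z
  | 0, leaf _, leaf _, _, _, _ => by simp [zip, evalZ]
  | 0, node _ _, _, h, _, _ => by simp [wf] at h
  | 0, leaf _, node _ _, _, h, _ => by simp [wf] at h
  | N + 1, leaf _, _, h, _, _ => by simp [wf] at h
  | N + 1, node _ _, leaf _, _, h, _ => by simp [wf] at h
  | N + 1, node a b, node c d, h, h', z => by
      simp only [wf, Bool.and_eq_true] at h h'
      simp only [zip, evalZ]
      split_ifs
      · exact evalZ_zip_add N b d h.2 h'.2 _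
      · exact evalZ_zip_add N a c h.1 h'.1 _

lemma evalZ_zip_sub : ∀ (N : ℕ) (s t : BT ℤ), wf N s = true → wf N t = true →
    ∀ z : Fin N → Bool, evalZ N (zip (· - ·) s t) z = evalZ N s z - evalZ N t z
  | 0, leaf _, leaf _, _, _, _ => by simp [zip, evalZ]
  | 0, node _ _, _, h, _, _ => by simp [wf] at h
  | 0, leaf _, node _ _, _, h, _ => by simp [wf] at h
  | N + 1, leaf _, _, h, _, _ => by simp [wf] at h
  | N + 1, node _ _, leaf _, _, h, _ => by simp [wf] at h
  | N + 1, node a b, node c d, h, h', z => by
      simp only [wf, Bool.and_eq_true] at h h'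
      simp only [zip, evalZ]
      split_ifs
      · exact evalZ_zip_sub N b d h.2 h'.2 _
      · exact evalZ_zip_sub N a c h.1 h'.1 _

/-- all leaves are zero. -/
def isZero : BT ℤ → Bool
  | leaf v => decide (v = 0)
  | node a b => isZero a && isZero b

lemma evalZ_of_isZero : ∀ (N : ℕ) (t : BT ℤ), isZero t = true → ∀ z : Fin N → Bool,
    evalZ N t z = 0
  | 0, leaf v, h, _ => by
      simp only [isZero, decide_eq_true_eq] at h
      simp [evalZ, h]
  | 0, node _ _, _, _ => rfl
  | N + 1, leaf _, _, _ => rfl
  | N + 1, node a b, h, z => by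
      simp only [isZero, Bool.and_eq_true] at h
      simp only [evalZ]
      split_ifs
      · exact evalZ_of_isZero N b h.2 _
      · exact evalZ_of_isZero N a h.1 _

/-- fast Walsh–Hadamard degree check: `chk N d t` certifies that the function of the depth-`N`
integer tree `t` lies in the span of the characters of size at most `d`. -/
def chk : ℕ → ℕ → BT ℤ → Bool
  | 0, _, _ => true
  | N + 1, 0, node a b => isZero (zip (· - ·) b a) && chk N 0 (zip (· + ·) b a)
  | N + 1, d + 1, node a b => chk N d (zip (· - ·) b a) && chk N (d + 1) (zip (· + ·) b a)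
  | _ + 1, _, leaf _ => false

lemma evalZ_node_eq (N : ℕ) (a b : BT ℤ) (ha : wf N a = true) (hb : wf N b = true) :
    evalZ (N + 1) (node a b)
      = (1 / 2 : ℝ) • (fun z : Fin (N + 1) → Bool =>
            evalZ N (zip (· + ·) b a) (fun i => z (Fin.succEmb N i)))
        + (1 / 2 : ℝ) • ((chi ({0} : Finset (Fin (N + 1))))
            * (fun z : Fin (N + 1) → Bool =>
                evalZ N (zip (· - ·) b a) (fun i => z (Fin.succEmb N i)))) := by
  funext z
  simp only [evalZ, Pi.add_apply, Pi.smul_apply, Pi.mul_apply, smul_eq_mul, Fin.coe_succEmb,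
    evalZ_zip_add N b a hb ha, evalZ_zip_sub N b a hb ha, chi, Finset.prod_singleton]
  cases z 0 <;> simp <;> ring

theorem chk_sound : ∀ (N d : ℕ) (t : BT ℤ), wf N t = true → chk N d t = true →
    evalZ N t ∈ degLE (Fin N) d
  | 0, d, leaf v, _, _ => by
      have h : evalZ 0 (leaf v) = fun _ => (v : ℝ) := by funext z; rfl
      rw [h]
      exact const_mem_degLE _ d
  | 0, _, node _ _, h, _ => by simp [wf] at h
  | N + 1, _, leaf _, h, _ => by simp [wf] at h
  | N + 1, 0, node a b, h, hc => by
      simp only [wf, Bool.and_eq_true] at h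
      simp only [chk, Bool.and_eq_true] at hc
      rw [evalZ_node_eq N a b h.1 h.2]
      have h1 := chk_sound N 0 (zip (· + ·) b a) (wf_zip _ N b a h.2 h.1) hc.2
      have h2 : (fun z : Fin (N + 1) → Bool =>
          evalZ N (zip (· - ·) b a) (fun i => z (Fin.succEmb N i))) = 0 := by
        funext z
        exact evalZ_of_isZero N _ hc.1 _
      rw [h2, mul_zero, smul_zero, add_zero]
      exact Submodule.smul_mem _ _ (pull_mem_degLE (Fin.succEmb N) h1)
  | N + 1, d + 1, node a b, h, hc => by
      simp only [wf, Bool.and_eq_true] at h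
      simp only [chk, Bool.and_eq_true] at hc
      rw [evalZ_node_eq N a b h.1 h.2]
      have h1 := chk_sound N (d + 1) (zip (· + ·) b a) (wf_zip _ N b a h.2 h.1) hc.2
      have h2 := chk_sound N d (zip (· - ·) b a) (wf_zip _ N b a h.2 h.1) hc.1
      have h3 : chi ({0} : Finset (Fin (N + 1))) ∈ degLE (Fin (N + 1)) 1 :=
        chi_mem_degLE (by simp)
      have h4 := mul_mem_degLE h3 (pull_mem_degLE (Fin.succEmb N) h2)
      rw [add_comm 1 d] at h4
      exact Submodule.add_mem _ (Submodule.smul_mem _ _ (pull_mem_degLE (Fin.succEmb N) h1))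
        (Submodule.smul_mem _ _ h4)

/-- the degree certificate for a Boolean truth table. -/
theorem lowDeg_of_chk (N D : ℕ) (t : BT Bool) (hwf : wf N t = true)
    (hchk : chk N D (sgT t) = true) : LowDeg (evalB N t) D := by
  have h : (fun z : Fin N → Bool => sg (evalB N t z)) = evalZ N (sgT t) := by
    funext z
    exact sg_evalB N t hwf z
  unfold LowDeg
  rw [h]
  exact chk_sound N D (sgT t) (wf_sgT N t hwf) hchk

/-! ### the bias polynomial of a table -/

/-- coefficientwise sum of two coefficient lists. -/
def addL : List ℤ → List ℤ → List ℤ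
  | [], b => b
  | a, [] => a
  | x :: a, y :: b => (x + y) :: addL a b

/-- the polynomial with coefficient list `l` (constant term first). -/
noncomputable def toPoly : List ℤ → ℝ[X]
  | [] => 0
  | c :: l => C (c : ℝ) + X * toPoly l

lemma toPoly_addL : ∀ a b : List ℤ, toPoly (addL a b) = toPoly a + toPoly b
  | [], b => by simp [addL, toPoly]
  | x :: a, [] => by simp [addL, toPoly]
  | x :: a, y :: b => by
      simp only [addL, toPoly, toPoly_addL a b, Int.cast_add, C_add]
      ring

lemma toPoly_neg (a : List ℤ) : toPoly (a.map (fun x => -x)) = - toPoly a := by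
  induction a with
  | nil => simp [toPoly]
  | cons x a ih =>
    simp only [List.map_cons, toPoly, ih, Int.cast_neg, C_neg]
    ring

/-- monomial coefficients of the bias polynomial of a Boolean tree. -/
def polyL : BT Bool → List ℤ
  | leaf b => [if b then 1 else 0]
  | node t₀ t₁ => addL (polyL t₀) (0 :: addL (polyL t₁) ((polyL t₀).map (fun x => -x)))

lemma evalB_node (N : ℕ) (t₀ t₁ : BT Bool) :
    evalB (N + 1) (node t₀ t₁)
      = fre (finSuccEquiv N).symm (mux (evalB N t₁) (evalB N t₀)) := by
  funext z
  simp [evalB, fre, mux]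

theorem biasPoly_evalB : ∀ (N : ℕ) (t : BT Bool), wf N t = true →
    biasPoly (evalB N t) = toPoly (polyL t)
  | 0, leaf b, _ => by
      have h : evalB 0 (leaf b) = fun _ => b := by funext z; rfl
      rw [h]
      cases b
      · rw [biasPoly_const_false]; simp [polyL, toPoly]
      · rw [biasPoly_const_true]; simp [polyL, toPoly]
  | 0, node _ _, h => by simp [wf] at h
  | N + 1, leaf _, h => by simp [wf] at h
  | N + 1, node t₀ t₁, h => by
      simp only [wf, Bool.and_eq_true] at h
      rw [evalB_node, biasPoly_fre, biasPoly_mux, biasPoly_evalB N t₁ h.2, biasPoly_evalB N t₀ h.1]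
      simp only [polyL, toPoly_addL, toPoly, toPoly_neg, Int.cast_zero, C_0]
      ring

/-! ### strict (kernel-friendly) versions

The kernel evaluates lazily and does not share the evaluation of an argument used twice.  The
functions below force every intermediate value exactly once (continuation-passing style); they are
provably equal to the plain versions above. -/

/-- force an integer to a literal before passing it on. -/
def forceZ {α : Type} (v : ℤ) (k : ℤ → α) : α :=
  match v with
  | Int.ofNat n => (match n with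
      | 0 => k (Int.ofNat 0)
      | m + 1 => k (Int.ofNat (m + 1)))
  | Int.negSucc n => (match n with
      | 0 => k (Int.negSucc 0)
      | m + 1 => k (Int.negSucc (m + 1)))

lemma forceZ_eq {α : Type} (v : ℤ) (k : ℤ → α) : forceZ v k = k v := by
  unfold forceZ
  cases v with
  | ofNat n => cases n <;> rfl
  | negSucc n => cases n <;> rfl

/-- force a whole integer tree. -/
def normZ {α : Type} : BT ℤ → (BT ℤ → α) → α
  | leaf v, k => forceZ v (fun v' => k (leaf v'))
  | node a b, k => normZ a (fun a' => normZ b (fun b' => k (node a' b')))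

lemma normZ_eq {α : Type} : ∀ (t : BT ℤ) (k : BT ℤ → α), normZ t k = k t
  | leaf v, k => by simp [normZ, forceZ_eq]
  | node a b, k => by simp [normZ, normZ_eq a, normZ_eq b]

/-- strict version of `chk`. -/
def chkS : ℕ → ℕ → BT ℤ → Bool
  | 0, _, _ => true
  | N + 1, 0, node a b =>
      isZero (zip (· - ·) b a) && normZ (zip (· + ·) b a) (fun p => chkS N 0 p)
  | N + 1, d + 1, node a b =>
      normZ (zip (· - ·) b a) (fun s => normZ (zip (· + ·) b a) (fun p =>
        chkS N d s && chkS N (d + 1) p))
  | _ + 1, _, leaf _ => false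

lemma chkS_eq : ∀ (N d : ℕ) (t : BT ℤ), chkS N d t = chk N d t
  | 0, _, _ => by simp [chkS, chk]
  | N + 1, 0, node a b => by simp [chkS, chk, normZ_eq, chkS_eq N]
  | N + 1, d + 1, node a b => by simp [chkS, chk, normZ_eq, chkS_eq N]
  | N + 1, 0, leaf _ => by simp [chkS, chk]
  | N + 1, d + 1, leaf _ => by simp [chkS, chk]

/-- the strict degree check of a Boolean table. -/
def chkB (N D : ℕ) (t : BT Bool) : Bool := normZ (sgT t) (fun s => chkS N D s)

lemma chkB_eq (N D : ℕ) (t : BT Bool) : chkB N D t = chk N D (sgT t) := by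
  simp [chkB, normZ_eq, chkS_eq]

/-- strict computation of the coefficient list of `(1 - X) * P₀ + X * P₁` (plus a carry). -/
def comb : ℤ → List ℤ → List ℤ → List ℤ
  | c, [], q => c :: q
  | c, x :: p, [] => forceZ x (fun x' => forceZ (x' + c) (fun s => s :: comb (-x') p []))
  | c, x :: p, y :: q => forceZ x (fun x' => forceZ y (fun y' => forceZ (x' + c) (fun s =>
      s :: comb (y' - x') p q)))

lemma toPoly_comb : ∀ (p : List ℤ) (c : ℤ) (q : List ℤ),
    toPoly (comb c p q) = C (c : ℝ) + toPoly p + X * (toPoly q - toPoly p)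
  | [], c, q => by simp [comb, toPoly]
  | x :: p, c, [] => by
      simp only [comb, forceZ_eq, toPoly, toPoly_comb p (-x) [], Int.cast_add, Int.cast_neg,
        C_add, C_neg]
      ring
  | x :: p, c, y :: q => by
      simp only [comb, forceZ_eq, toPoly, toPoly_comb p (y - x) q, Int.cast_add, Int.cast_sub,
        C_add, C_sub]
      ring

/-- strict version of `polyL`. -/
def polyS : BT Bool → List ℤ
  | leaf b => [if b then 1 else 0]
  | node t₀ t₁ => comb 0 (polyS t₀) (polyS t₁)

lemma toPoly_polyS : ∀ t : BT Bool, toPoly (polyS t) = toPoly (polyL t)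
  | leaf b => rfl
  | node t₀ t₁ => by
      simp only [polyS, polyL, toPoly_comb, toPoly_addL, toPoly, toPoly_neg, toPoly_polyS t₀,
        toPoly_polyS t₁, Int.cast_zero, C_0]
      ring

end BT

/-- **Table form of the main theorem**: a truth table (full binary tree of depth `N`) passing the
Walsh–Hadamard degree check `chk N D`, whose bias polynomial `Q = toPoly (polyL t)` has a fixed or
anti-fixed point `p ∈ (0,1)` with `D < Q'(p)^2`, implies the S0085 statement. -/
theorem S0085_of_table (N D : ℕ) (t : BT Bool) (hD : 1 ≤ D) (hwf : BT.wf N t = true)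
    (hchk : BT.chk N D (BT.sgT t) = true)
    (p : ℝ) (hp0 : 0 < p) (hp1 : p < 1)
    (hfix : (BT.toPoly (BT.polyL t)).eval p = p ∨ (BT.toPoly (BT.polyL t)).eval p = 1 - p)
    (hslope : (D : ℝ) < ((BT.toPoly (BT.polyL t)).derivative.eval p) ^ 2) (C : ℝ) (hC : 0 < C) :
    ∃ n : ℕ, ∃ f : (Fin n → Bool) → Bool, ∃ d : ℕ,
      (∃ x y, f x ≠ f y) ∧
      (∀ S : Finset (Fin n), d < S.card →
        ∑ x : Fin n → Bool, ((if f x then (1 : ℝ) else -1) * ∏ i ∈ S, (if x i then (1 : ℝ) else -1)) = 0) ∧
      C * Real.sqrt d <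
        ∑ i : Fin n, (∑ x : Fin n → Bool, ((if f x then (1 : ℝ) else -1) * (if x i then (1 : ℝ) else -1))) / 2 ^ n := by
  have hR : Realizable (BT.toPoly (BT.polyL t)) D :=
    ⟨N, BT.evalB N t, BT.lowDeg_of_chk N D t hwf hchk, BT.biasPoly_evalB N t hwf⟩
  rcases hfix with h | h
  · exact S0085_of_fixed_point _ D hD hR p hp0 hp1 h hslope C hC
  · exact S0085_of_antifixed _ D hD hR p hp0 hp1 h hslope C hC

/-- **Strict table form** (use this one with `decide +kernel`): `hchk : BT.chkB N D t = true`,
`hpoly : BT.polyS t = l` for an explicit coefficient list `l` (constant term first). -/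
theorem S0085_of_table' (N D : ℕ) (t : BT Bool) (l : List ℤ) (hD : 1 ≤ D)
    (hwf : BT.wf N t = true) (hchk : BT.chkB N D t = true) (hpoly : BT.polyS t = l)
    (p : ℝ) (hp0 : 0 < p) (hp1 : p < 1)
    (hfix : (BT.toPoly l).eval p = p ∨ (BT.toPoly l).eval p = 1 - p)
    (hslope : (D : ℝ) < ((BT.toPoly l).derivative.eval p) ^ 2) (C : ℝ) (hC : 0 < C) :
    ∃ n : ℕ, ∃ f : (Fin n → Bool) → Bool, ∃ d : ℕ,
      (∃ x y, f x ≠ f y) ∧
      (∀ S : Finset (Fin n), d < S.card →
        ∑ x : Fin n → Bool, ((if f x then (1 : ℝ) else -1) * ∏ i ∈ S, (if x i then (1 : ℝ) else -1)) = 0) ∧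
      C * Real.sqrt d <
        ∑ i : Fin n, (∑ x : Fin n → Bool, ((if f x then (1 : ℝ) else -1) * (if x i then (1 : ℝ) else -1))) / 2 ^ n := by
  have e : BT.toPoly l = BT.toPoly (BT.polyL t) := by rw [← hpoly, BT.toPoly_polyS]
  rw [e] at hfix hslope
  exact S0085_of_table N D t hD hwf (by rw [← BT.chkB_eq]; exact hchk) p hp0 hp1 hfix hslope C hC

end Crest.Agent.Helper65.S85
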