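/-
helper65 — S0085 (row 63) conditional reduction, module 8: turnkey numeric side conditions.

For a coefficient list `l : List ℤ` (constant term first) everything is computable over `ℚ`:
`evalQ l x` (Horner), `derivL l` (coefficients of the derivative), `absSum l` (sum of absolute
values, a bound for `|Q|` on `[0,1]`).  `fixed_point_of_bracket` turns a rational bracket `[a,b]`
with a sign change of `Q(t) - t` (or of `Q(t) - (1 - t)`) and a lower bound `m` for `|Q'|` on it
into a fixed (anti-fixed) point `p` with `m ≤ |Q'(p)|`; `S0085_of_table_bracket` is the final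
turnkey statement.  Mathlib only.
-/
import Crest.Agent.Helper65.S85.Table

set_option autoImplicit false
set_option linter.unusedSectionVars false

namespace Crest.Agent.Helper65.S85

open Polynomial

namespace BT

/-- Horner evaluation over `ℚ`. -/
def evalQ : List ℤ → ℚ → ℚ
  | [], _ => 0
  | c :: l, x => (c : ℚ) + x * evalQ l x

lemma eval_toPoly : ∀ (l : List ℤ) (x : ℚ), (toPoly l).eval (x : ℝ) = ((evalQ l x : ℚ) : ℝ)
  | [], x => by simp [toPoly, evalQ]
  | c :: l, x => by
      simp only [toPoly, evalQ, eval_add, eval_C, eval_mul, eval_X, eval_toPoly l x]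
      push_cast
      ring

/-- coefficient list of the derivative. -/
def derivL : List ℤ → List ℤ
  | [] => []
  | _ :: l => addL l (0 :: derivL l)

lemma derivative_toPoly : ∀ l : List ℤ, derivative (toPoly l) = toPoly (derivL l)
  | [] => by simp [toPoly, derivL]
  | c :: l => by
      simp only [toPoly, derivL, toPoly_addL, derivative_add, derivative_C, derivative_mul,
        derivative_X, derivative_toPoly l, Int.cast_zero, C_0]
      ring

/-- sum of the absolute values of the coefficients. -/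
def absSum : List ℤ → ℕ
  | [] => 0
  | c :: l => c.natAbs + absSum l

lemma abs_eval_toPoly_le : ∀ (l : List ℤ) (t : ℝ), 0 ≤ t → t ≤ 1 →
    |(toPoly l).eval t| ≤ (absSum l : ℝ)
  | [], t, _, _ => by simp [toPoly, absSum]
  | c :: l, t, h0, h1 => by
      have ih := abs_eval_toPoly_le l t h0 h1
      simp only [toPoly, absSum, eval_add, eval_C, eval_mul, eval_X, Nat.cast_add]
      have h2 : |(c : ℝ)| = ((c.natAbs : ℕ) : ℝ) := by
        rw [Nat.cast_natAbs, Int.cast_abs]
      have h3 : |t * (toPoly l).eval t| ≤ (absSum l : ℝ) := by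
        rw [abs_mul, abs_of_nonneg h0]
        calc t * |(toPoly l).eval t| ≤ 1 * |(toPoly l).eval t| :=
              mul_le_mul_of_nonneg_right h1 (abs_nonneg _)
          _ = |(toPoly l).eval t| := one_mul _
          _ ≤ (absSum l : ℝ) := ih
      calc |(c : ℝ) + t * (toPoly l).eval t| ≤ |(c : ℝ)| + |t * (toPoly l).eval t| := abs_add_le _ _
        _ ≤ ((c.natAbs : ℕ) : ℝ) + (absSum l : ℝ) := by rw [h2]; linarith

end BT

/-- a sign change of `Q(t) - t` on `[a,b]` gives a fixed point. -/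
lemma exists_fixed_of_sign (Q : ℝ[X]) (a b : ℝ) (hab : a ≤ b)
    (hsign : (Q.eval a - a) * (Q.eval b - b) ≤ 0) : ∃ p, a ≤ p ∧ p ≤ b ∧ Q.eval p = p := by
  have hcont : ContinuousOn (fun t : ℝ => Q.eval t - t) (Set.Icc a b) :=
    (Q.continuous.sub continuous_id).continuousOn
  rcases mul_nonpos_iff.1 hsign with ⟨h1, h2⟩ | ⟨h1, h2⟩
  · have h0 : (0 : ℝ) ∈ Set.Icc (Q.eval b - b) (Q.eval a - a) := ⟨h2, h1⟩
    obtain ⟨p, hp, hp0⟩ := intermediate_value_Icc' hab hcont h0
    exact ⟨p, hp.1, hp.2, by linarith [hp0]⟩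
  · have h0 : (0 : ℝ) ∈ Set.Icc (Q.eval a - a) (Q.eval b - b) := ⟨h1, h2⟩
    obtain ⟨p, hp, hp0⟩ := intermediate_value_Icc hab hcont h0
    exact ⟨p, hp.1, hp.2, by linarith [hp0]⟩

/-- a lower bound for `|Q'|` on `[a,b]` from its value at `a` and a bound on `|Q''|`. -/
lemma slope_on_bracket (Q : ℝ[X]) (a b K m : ℝ)
    (hK : ∀ t, a ≤ t → t ≤ b → |Q.derivative.derivative.eval t| ≤ K)
    (hm : m ≤ |Q.derivative.eval a| - K * (b - a)) :
    ∀ t, a ≤ t → t ≤ b → m ≤ |Q.derivative.eval t| := by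
  intro t hat htb
  have hK0 : 0 ≤ K := le_trans (abs_nonneg _) (hK a le_rfl (hat.trans htb))
  have h := Convex.norm_image_sub_le_of_norm_deriv_le (f := fun t => Q.derivative.eval t) (C := K)
    (s := Set.Icc a b) (x := a) (y := t)
    (fun u _ => Q.derivative.differentiableAt)
    (fun u hu => by
      rw [Polynomial.deriv]
      exact hK u hu.1 hu.2)
    (convex_Icc a b) ⟨le_rfl, hat.trans htb⟩ ⟨hat, htb⟩
  simp only [Real.norm_eq_abs] at h
  have h1 : |t - a| ≤ b - a := by rw [abs_of_nonneg (by linarith)]; linarith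
  have h2 : |Q.derivative.eval t - Q.derivative.eval a| ≤ K * (b - a) :=
    h.trans (mul_le_mul_of_nonneg_left h1 hK0)
  have h3 : |Q.derivative.eval a| - |Q.derivative.eval t|
      ≤ |Q.derivative.eval a - Q.derivative.eval t| := abs_sub_abs_le_abs_sub _ _
  rw [abs_sub_comm] at h3
  linarith

/-- **Turnkey form.**  `t` a truth table of depth `N` passing the degree check, `l` its bias
coefficient list, `[a,b] ⊂ (0,1)` a rational bracket with a sign change of `Q(t) - t` or of
`Q(t) - (1 - t)`, and a rational `m` with `D < m^2` and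
`m ≤ |Q'(a)| - (absSum of Q'') * (b - a)`.  Every hypothesis is a closed computation. -/
theorem S0085_of_table_bracket (N D : ℕ) (t : BT Bool) (l : List ℤ) (hD : 1 ≤ D)
    (hwf : BT.wf N t = true) (hchk : BT.chk N D (BT.sgT t) = true) (hpoly : BT.polyL t = l)
    (a b : ℚ) (ha : 0 < a) (hab : a ≤ b) (hb : b < 1)
    (hsign : (BT.evalQ l a - a) * (BT.evalQ l b - b) ≤ 0 ∨
      (BT.evalQ l a - (1 - a)) * (BT.evalQ l b - (1 - b)) ≤ 0)
    (m : ℚ) (hm0 : 0 ≤ m) (hmD : (D : ℚ) < m ^ 2)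
    (hm : m ≤ |BT.evalQ (BT.derivL l) a| - (BT.absSum (BT.derivL (BT.derivL l)) : ℚ) * (b - a))
    (C : ℝ) (hC : 0 < C) :
    ∃ n : ℕ, ∃ f : (Fin n → Bool) → Bool, ∃ d : ℕ,
      (∃ x y, f x ≠ f y) ∧
      (∀ S : Finset (Fin n), d < S.card →
        ∑ x : Fin n → Bool, ((if f x then (1 : ℝ) else -1) * ∏ i ∈ S, (if x i then (1 : ℝ) else -1)) = 0) ∧
      C * Real.sqrt d <
        ∑ i : Fin n, (∑ x : Fin n → Bool, ((if f x then (1 : ℝ) else -1) * (if x i then (1 : ℝ) else -1))) / 2 ^ n := by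
  subst hpoly
  set Q : ℝ[X] := BT.toPoly (BT.polyL t) with hQ
  have haR : (0 : ℝ) < (a : ℝ) := by exact_mod_cast ha
  have habR : (a : ℝ) ≤ (b : ℝ) := by exact_mod_cast hab
  have hbR : (b : ℝ) < 1 := by exact_mod_cast hb
  -- slope bound on the bracket
  have hK : ∀ u : ℝ, (a : ℝ) ≤ u → u ≤ (b : ℝ) → |Q.derivative.derivative.eval u|
      ≤ ((BT.absSum (BT.derivL (BT.derivL (BT.polyL t))) : ℕ) : ℝ) := by
    intro u hu1 hu2
    rw [hQ, BT.derivative_toPoly, BT.derivative_toPoly]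
    exact BT.abs_eval_toPoly_le _ u (by linarith) (by linarith)
  have hmR : (m : ℝ) ≤ |Q.derivative.eval (a : ℝ)|
      - ((BT.absSum (BT.derivL (BT.derivL (BT.polyL t))) : ℕ) : ℝ) * ((b : ℝ) - (a : ℝ)) := by
    rw [hQ, BT.derivative_toPoly, BT.eval_toPoly]
    have h := hm
    have h' : ((m : ℚ) : ℝ) ≤ ((|BT.evalQ (BT.derivL (BT.polyL t)) a|
        - (BT.absSum (BT.derivL (BT.derivL (BT.polyL t))) : ℚ) * (b - a) : ℚ) : ℝ) := by
      exact_mod_cast h
    push_cast at h'
    exact h'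
  have hslope := slope_on_bracket Q a b _ m hK hmR
  have hmD' : (D : ℝ) < (m : ℝ) ^ 2 := by exact_mod_cast hmD
  have hm0' : (0 : ℝ) ≤ (m : ℝ) := by exact_mod_cast hm0
  have hsl : ∀ p : ℝ, (a : ℝ) ≤ p → p ≤ (b : ℝ) → (D : ℝ) < (Q.derivative.eval p) ^ 2 := by
    intro p hp1 hp2
    have h1 := hslope p hp1 hp2
    have h2 : (m : ℝ) ^ 2 ≤ |Q.derivative.eval p| ^ 2 := pow_le_pow_left₀ hm0' h1 2
    rw [sq_abs] at h2
    linarith
  rcases hsign with hs | hs
  · have hsR : (Q.eval (a : ℝ) - a) * (Q.eval (b : ℝ) - b) ≤ 0 := by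
      rw [hQ, BT.eval_toPoly, BT.eval_toPoly]
      exact_mod_cast hs
    obtain ⟨p, hp1, hp2, hfix⟩ := exists_fixed_of_sign Q a b habR hsR
    exact S0085_of_table N D t hD hwf hchk p (by linarith) (by linarith) (Or.inl hfix)
      (hsl p hp1 hp2) C hC
  · have hsR : ((1 - Q).eval (a : ℝ) - a) * ((1 - Q).eval (b : ℝ) - b) ≤ 0 := by
      have e : ∀ x : ℚ, (1 - Q).eval (x : ℝ) - x = -(Q.eval (x : ℝ) - (1 - x)) := by
        intro x; simp; ring
      rw [e a, e b, neg_mul_neg, hQ, BT.eval_toPoly, BT.eval_toPoly]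
      exact_mod_cast hs
    obtain ⟨p, hp1, hp2, hfix⟩ := exists_fixed_of_sign (1 - Q) a b habR hsR
    have hfix' : Q.eval p = 1 - p := by
      have : (1 - Q).eval p = 1 - Q.eval p := by simp
      linarith
    exact S0085_of_table N D t hD hwf hchk p (by linarith) (by linarith) (Or.inr hfix')
      (hsl p hp1 hp2) C hC

end Crest.Agent.Helper65.S85
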